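import Vale.Agent.P006.D

/-! P006 branch D, row AB: Abel summation twice. -/

noncomputable section
open Complex
open scoped Classical ComplexConjugate

namespace Vale.Agent.P006.D
open Vale.Agent.P026

namespace ABM

/-- layer-cake form of Abel summation -/
theorem layer {ι : Type} (T : Finset ι) (z : ι → ℂ) (φ : ι → ℝ) (D M : ℝ) (hM : 0 ≤ M)
    (hφ : ∀ n ∈ T, 0 ≤ φ n ∧ φ n ≤ M)
    (h : ∀ t : ℝ, ‖∑ n ∈ T.filter (fun n => t ≤ φ n), z n‖ ≤ D) :
    ‖∑ n ∈ T, z n * (φ n : ℂ)‖ ≤ D * M := by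
  have e1 : ∀ n ∈ T, z n * (φ n : ℂ) =
      ∫ t in (0 : ℝ)..M, Set.indicator {x : ℝ | x ≤ φ n} (fun _ => z n) t := by
    intro n hn
    rw [intervalIntegral.integral_indicator ⟨(hφ n hn).1, (hφ n hn).2⟩]
    simp [mul_comm]
  rw [Finset.sum_congr rfl e1, ← intervalIntegral.integral_finsetSum]
  · have := intervalIntegral.norm_integral_le_of_norm_le_const (a := (0 : ℝ)) (b := M) (C := D)
      (f := fun t => ∑ n ∈ T, Set.indicator {x : ℝ | x ≤ φ n} (fun _ => z n) t) (by
        intro t _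
        have : ∑ n ∈ T, Set.indicator {x : ℝ | x ≤ φ n} (fun _ => z n) t =
            ∑ n ∈ T.filter (fun n => t ≤ φ n), z n := by
          rw [Finset.sum_filter]
          refine Finset.sum_congr rfl fun n _ => ?_
          simp [Set.indicator_apply]
        rw [this]; exact h t)
    simpa [abs_of_nonneg hM] using this
  · intro n _
    refine ⟨?_, ?_⟩ <;>
      exact (MeasureTheory.integrableOn_const (by simp)).indicator measurableSet_Iic

theorem down {ι : Type} (T : Finset ι) (z : ι → ℂ) (ν : ι → ℝ) (D : ℝ) (hD : 0 ≤ D)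
    (h : ∀ y : ℝ, ‖∑ n ∈ T.filter (fun n => ν n ≤ y), z n‖ ≤ D) (P : ι → Prop) [DecidablePred P]
    (hP : ∀ a ∈ T, ∀ b ∈ T, P b → ν a ≤ ν b → P a) :
    ‖∑ n ∈ T.filter P, z n‖ ≤ D := by
  rcases (T.filter P).eq_empty_or_nonempty with h0 | h0
  · simp [h0, hD]
  · obtain ⟨b, hb, hm⟩ := Finset.exists_max_image _ ν h0
    rw [Finset.mem_filter] at hb
    have : T.filter P = T.filter (fun n => ν n ≤ ν b) := by
      ext a
      simp only [Finset.mem_filter]
      exact ⟨fun ha => ⟨ha.1, hm a (Finset.mem_filter.2 ha)⟩,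
        fun ha => ⟨ha.1, hP a ha.1 b hb.1 hb.2 ha.2⟩⟩
    rw [this]; exact h _

end ABM

theorem abS : ABStmt := by
  intro T z Y D c hY hD hc hs h
  set T' := T.filter (fun n => z n ≠ 0) with hT'
  have hs' : ∀ n ∈ T', Y / 2 < N n ∧ N n ≤ Y := fun n hn =>
    hs n (Finset.mem_filter.1 hn).1 (Finset.mem_filter.1 hn).2
  have hp : ∀ n ∈ T', 0 < N n := fun n hn => lt_trans (by linarith) (hs' n hn).1
  have h' : ∀ y : ℝ, ‖∑ n ∈ T'.filter (fun n => N n ≤ y), z n‖ ≤ D := by
    intro y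
    have : ∑ n ∈ T'.filter (fun n => N n ≤ y), z n = ∑ n ∈ T.filter (fun n => N n ≤ y), z n := by
      rw [hT', Finset.filter_comm, Finset.sum_filter_ne_zero]
    rw [this]; exact h y
  set M1 := (Real.sqrt (Y / 2))⁻¹ with hM1
  have hM1' : 0 ≤ M1 := by positivity
  -- first step
  have s1 : ∀ y : ℝ, ‖∑ n ∈ T'.filter (fun n => N n ≤ y),
      z n * (((Real.sqrt (N n))⁻¹ : ℝ) : ℂ)‖ ≤ D * M1 := by
    intro y
    refine ABM.layer _ z (fun n => (Real.sqrt (N n))⁻¹) D M1 hM1' ?_ ?_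
    · intro n hn
      have hn' := (Finset.mem_filter.1 hn).1
      refine ⟨by positivity, ?_⟩
      exact inv_anti₀ (Real.sqrt_pos.2 (by linarith)) (Real.sqrt_le_sqrt (hs' n hn').1.le)
    · intro t
      rw [Finset.filter_filter]
      refine ABM.down T' z N D hD h' _ ?_
      intro a ha b hb hPb hab
      exact ⟨hab.trans hPb.1, hPb.2.trans
        (inv_anti₀ (Real.sqrt_pos.2 (hp a ha)) (Real.sqrt_le_sqrt hab))⟩
  have s2 := ABM.layer T' (fun n => z n * (((Real.sqrt (N n))⁻¹ : ℝ) : ℂ))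
    (fun n => Real.exp (-(c / N n))) (2 * (D * M1)) (Real.exp (-(c / Y))) (Real.exp_pos _).le
    (by
      intro n hn
      refine ⟨(Real.exp_pos _).le, Real.exp_le_exp.2 (neg_le_neg ?_)⟩
      exact div_le_div_of_nonneg_left hc (hp n hn) (hs' n hn).2)
    (by
      intro t
      have a1 := ABM.down T' _ N (D * M1) (by positivity) s1 (fun _ => True) (by simp)
      have a2 := ABM.down T' _ N (D * M1) (by positivity) s1
        (fun n => ¬ t ≤ Real.exp (-(c / N n))) (by
          intro a ha b hb hPb hab hta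
          exact hPb (hta.trans (Real.exp_le_exp.2 (neg_le_neg
            (div_le_div_of_nonneg_left hc (hp a ha) hab)))))
      rw [Finset.filter_true] at a1
      have e := Finset.sum_filter_add_sum_filter_not T' (fun n => t ≤ Real.exp (-(c / N n)))
        (fun n => z n * (((Real.sqrt (N n))⁻¹ : ℝ) : ℂ))
      rw [eq_sub_of_add_eq e]
      exact (norm_sub_le _ _).trans (by linarith))
  have e : ∑ n ∈ T, z n * (((Real.sqrt (N n))⁻¹ * Real.exp (-(c / N n)) : ℝ) : ℂ) =
      ∑ n ∈ T', z n * (((Real.sqrt (N n))⁻¹ : ℝ) : ℂ) * ((Real.exp (-(c / N n)) : ℝ) : ℂ) := by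
    rw [hT', Finset.sum_filter]
    refine Finset.sum_congr rfl fun n _ => ?_
    by_cases hz : z n = 0
    · simp [hz]
    · rw [if_pos hz]; push_cast; ring
  rw [e]
  refine s2.trans ?_
  have : 0 ≤ D * M1 * Real.exp (-(c / Y)) := by positivity
  nlinarith

end Vale.Agent.P006.D
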