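import Vale.Agent.P026.M.OM
import Vale.Agent.P026.M.PO1

noncomputable section
open Complex MeasureTheory
open scoped Classical ComplexConjugate FourierTransform

namespace Vale.Agent.P006.D.C1M
open Vale.Agent.P026

def om0 : SchwartzMap ℂ ℂ := 𝓕⁻ OMM.G

theorem om0_F1 (η : ℂ) : FTc om0 η = cexp (-(‖η‖ ^ 6 : ℝ)) := by
  have h := FTc_eq om0 η
  rw [om0, ← SchwartzMap.fourier_coe, FourierTransform.fourier_fourierInv_eq] at h
  refine h.trans ?_
  show cexp (OMM.ph _) = _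
  rw [← ofReal_neg]
  congr 2
  have h3 : Real.sqrt 3 ^ 2 = 3 := Real.sq_sqrt (by norm_num)
  simp only [OMM.ph, norm_mul, norm_conj, norm_I, norm_real, Real.norm_eq_abs, mul_pow, sq_abs,
    div_pow, h3]
  ring

theorem om0_zero : om0 0 = ((Real.pi * (4 / 9) * Real.Gamma (1 / 3) : ℝ) : ℂ) := by
  rw [om0, SchwartzMap.fourierInv_coe, Real.fourierInv_eq]
  have h := Complex.integral_exp_neg_mul_rpow (p := 6) (b := 27 / 64) (by norm_num) (by norm_num)
  have h1 : ((27 : ℝ) / 64) ^ (-2 / 6 : ℝ) = 4 / 3 := by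
    have : ((27 : ℝ) / 64) = (4 / 3 : ℝ) ^ (-3 : ℝ) := by
      rw [Real.rpow_neg (by norm_num), show (3 : ℝ) = ((3 : ℕ) : ℝ) by norm_num, Real.rpow_natCast]
      norm_num
    rw [this, ← Real.rpow_mul (by norm_num)]
    norm_num
  have h2 : Real.Gamma (2 / 6 + 1) = 1 / 3 * Real.Gamma (1 / 3) := by
    rw [show (2 / 6 : ℝ) = 1 / 3 by norm_num, Real.Gamma_add_one (by norm_num)]
  rw [h1, h2] at h
  have h3 : Real.pi * (4 / 9) * Real.Gamma (1 / 3) =
      Real.pi * (4 / 3) * (1 / 3 * Real.Gamma (1 / 3)) := by ring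
  rw [h3, ← h, ← integral_complex_ofReal]
  refine integral_congr_ae (Filter.Eventually.of_forall fun z => ?_)
  simp only [inner_zero_right, AddChar.map_zero_eq_one, one_smul]
  show cexp (OMM.ph z) = ((Real.exp _ : ℝ) : ℂ)
  rw [ofReal_exp]
  congr 2
  rw [OMM.ph, show (6 : ℝ) = ((6 : ℕ) : ℝ) by norm_num, Real.rpow_natCast]
  ring

theorem om0_dec : ∃ K : ℝ, 0 ≤ K ∧ ∀ z, ‖om0 z‖ ≤ K * (1 + ‖z‖) ^ (-3 : ℝ) := by
  refine ⟨2 ^ 3 * (Finset.Iic (3, 0)).sup (fun m => SchwartzMap.seminorm ℝ m.1 m.2) om0,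
    by positivity, fun z => ?_⟩
  have h := SchwartzMap.one_add_le_sup_seminorm_apply (𝕜 := ℝ) (m := (3, 0)) (k := 3) (n := 0)
    le_rfl le_rfl om0 z
  rw [norm_iteratedFDeriv_zero] at h
  have hp : 0 < 1 + ‖z‖ := by positivity
  rw [Real.rpow_neg hp.le, ← div_eq_mul_inv, le_div_iff₀ (by positivity),
    show (3 : ℝ) = ((3 : ℕ) : ℝ) by norm_num, Real.rpow_natCast, mul_comm]
  exact h

theorem term_le (hB : Bas) {c : ℝ} (hc : 0 < c) (j : O) :
    (if j = 0 then 0 else Real.exp (-(c * N j ^ 3))) ≤ c⁻¹ * N j ^ (-3 : ℝ) := by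
  have hN : 0 ≤ N j := Nat.cast_nonneg _
  split_ifs with hj
  · positivity
  · have h1 := hB.b1.N_one_le j hj
    have hx : 0 < c * N j ^ 3 := by positivity
    rw [Real.rpow_neg hN, show (3 : ℝ) = ((3 : ℕ) : ℝ) by norm_num, Real.rpow_natCast, ← mul_inv,
      Real.exp_neg]
    refine inv_anti₀ hx ?_
    linarith [Real.add_one_le_exp (c * N j ^ 3)]

theorem summ0 (hB : Bas) {c : ℝ} (hc : 0 < c) :
    Summable fun j : O => if j = 0 then 0 else Real.exp (-(c * N j ^ 3)) :=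
  Summable.of_nonneg_of_le (fun j => by split_ifs <;> positivity) (term_le hB hc)
    ((hB.b3.summ 3 (by norm_num)).mul_left _)

theorem summ (hB : Bas) {c : ℝ} (hc : 0 < c) :
    Summable fun j : O => Real.exp (-(c * N j ^ 3)) := by
  refine ((summ0 hB hc).add (hasSum_ite_eq (0 : O) (1 : ℝ)).summable).congr fun j => ?_
  split_ifs with hj
  · simp [hj, hB.b1.N_zero]
  · simp

theorem big (hB : Bas) {c : ℝ} (hc : 0 < c) :
    ∑' j : O, (if j = 0 then 0 else Real.exp (-(c * N j ^ 3))) ≤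
      c⁻¹ * ∑' j : O, N j ^ (-3 : ℝ) := by
  rw [← tsum_mul_left]
  exact (summ0 hB hc).tsum_le_tsum (term_le hB hc) ((hB.b3.summ 3 (by norm_num)).mul_left _)

theorem small (hB : Bas) : ∃ C : ℝ, 0 ≤ C ∧ ∀ c : ℝ, 0 < c → c ≤ 1 →
    |∑' j : O, (if j = 0 then 0 else Real.exp (-(c * N j ^ 3))) -
      2 * Real.pi * Real.Gamma (1 / 3) / (3 * Real.sqrt 3) * c ^ (-1 / 3 : ℝ)| ≤ C := by
  obtain ⟨K, hK, hd⟩ := om0_dec
  have hS := hB.b3.summ (3 / 2) (by norm_num)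
  have hS0 : 0 ≤ ∑' a : O, N a ^ (-(3 / 2) : ℝ) :=
    tsum_nonneg fun a => Real.rpow_nonneg (Nat.cast_nonneg _) _
  refine ⟨1 + K * ∑' a : O, N a ^ (-(3 / 2) : ℝ), by positivity, fun c hc hc1 => ?_⟩
  set T : ℝ := c ^ (-1 / 6 : ℝ) with hT
  have hT1 : 1 ≤ T := Real.one_le_rpow_of_pos_of_le_one_of_nonpos hc hc1 (by norm_num)
  have hT0 : 0 < T := by linarith
  have hT2 : T ^ 2 = c ^ (-1 / 3 : ℝ) := by
    rw [hT, ← Real.rpow_natCast, ← Real.rpow_mul hc.le]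
    norm_num
  have hT6 : T ^ 6 = c⁻¹ := by
    rw [hT, ← Real.rpow_natCast, ← Real.rpow_mul hc.le, ← Real.rpow_neg_one]
    norm_num
  have hTc : (T : ℂ) ≠ 0 := by exact_mod_cast hT0.ne'
  have hF : ∀ b : O, F1 (fun z => om0 (T * z)) (toC b) =
      (((T ^ 2)⁻¹ * Real.exp (-(c * N b ^ 3)) : ℝ) : ℂ) := by
    intro b
    have h := FTc_mul om0 hTc (toC b)
    rw [om0_F1] at h
    refine h.trans ?_
    rw [norm_div, norm_real, Real.norm_eq_abs, abs_of_pos hT0, div_pow, hT6, hB.b1.N_eq,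
      ofReal_mul, ofReal_exp, ofReal_neg]
    congr 4
    field_simp
  have hdec : ∀ z : ℂ, ‖om0 (T * z)‖ ≤ K * (1 + ‖z‖) ^ (-3 : ℝ) := by
    intro z
    refine (hd _).trans (mul_le_mul_of_nonneg_left ?_ hK)
    refine Real.rpow_le_rpow_of_nonpos (by positivity) ?_ (by norm_num)
    rw [norm_mul, norm_real, Real.norm_eq_abs, abs_of_pos hT0]
    nlinarith [norm_nonneg z]
  have hP := po1S hB (fun z => om0 (T * z)) K (om0.continuous.comp (by fun_prop)) hdec (by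
    refine ((summ hB hc).mul_left (T ^ 2)⁻¹).congr fun b => ?_
    rw [hF, norm_real, Real.norm_eq_abs, abs_of_nonneg (by positivity)])
  simp only [hF] at hP
  rw [← ofReal_tsum, tsum_mul_left, (summ hB hc).tsum_eq_add_tsum_ite 0] at hP
  have hsa : Summable fun a : O => om0 (T * toC a) :=
    Summable.of_norm_bounded ((hB.b3.summ' 3 (by norm_num)).mul_left K) fun a => hdec _
  rw [hsa.tsum_eq_add_tsum_ite 0] at hP
  simp only [map_zero, mul_zero, om0_zero, hB.b1.N_zero] at hP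
  set R : ℂ := ∑' a : O, if a = 0 then 0 else om0 (T * toC a) with hR
  set S : ℝ := ∑' j : O, if j = 0 then 0 else Real.exp (-(c * N j ^ 3)) with hSd
  have hRle : ‖R‖ ≤ (T ^ 2)⁻¹ * (K * ∑' a : O, N a ^ (-(3 / 2) : ℝ)) := by
    rw [← tsum_mul_left, ← tsum_mul_left]
    refine tsum_of_norm_bounded ((hS.mul_left K).mul_left _).hasSum fun a => ?_
    have hN : 0 ≤ N a := Nat.cast_nonneg _
    split_ifs with ha
    · rw [norm_zero]
      positivity
    · have h1 := hB.b1.N_one_le a ha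
      have hn : 0 < ‖toC a‖ := by
        rw [hB.b1.N_eq] at h1
        by_contra h
        have : ‖toC a‖ = 0 := le_antisymm (not_lt.1 h) (norm_nonneg _)
        rw [this] at h1
        norm_num at h1
      refine (hd _).trans ?_
      rw [mul_left_comm]
      refine mul_le_mul_of_nonneg_left ?_ hK
      rw [norm_mul, norm_real, Real.norm_eq_abs, abs_of_pos hT0]
      have h2 : (1 + T * ‖toC a‖) ^ (-3 : ℝ) ≤ (T * ‖toC a‖) ^ (-3 : ℝ) :=
        Real.rpow_le_rpow_of_nonpos (by positivity) (by linarith) (by norm_num)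
      refine h2.trans ?_
      rw [Real.mul_rpow hT0.le hn.le, hB.b1.N_eq, ← Real.rpow_natCast (‖toC a‖) 2,
        ← Real.rpow_mul hn.le]
      have h3 : ((2 : ℕ) : ℝ) * -(3 / 2) = -3 := by norm_num
      rw [h3]
      refine mul_le_mul_of_nonneg_right ?_ (by positivity)
      rw [← Real.rpow_natCast T 2, ← Real.rpow_neg hT0.le]
      exact Real.rpow_le_rpow_of_exponent_le hT1 (by norm_num)
  have hs3 : (0 : ℝ) < Real.sqrt 3 := by positivity
  have hs3' : Real.sqrt 3 * Real.sqrt 3 = 3 := Real.mul_self_sqrt (by norm_num)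
  have hs3c : (Real.sqrt 3 : ℂ) ≠ 0 := by exact_mod_cast hs3.ne'
  have key : ((S - 2 * Real.pi * Real.Gamma (1 / 3) / (3 * Real.sqrt 3) * T ^ 2 : ℝ) : ℂ) =
      ((Real.sqrt 3 / 2 * T ^ 2 : ℝ) : ℂ) * R - 1 := by
    have h33 : (Real.sqrt 3 : ℂ) * (Real.sqrt 3 : ℂ) = 3 := by exact_mod_cast hs3'
    have hR' : R = kap⁻¹ * (((T ^ 2)⁻¹ * (Real.exp (-(c * 0 ^ 3)) + S) : ℝ) : ℂ) -
        ((Real.pi * (4 / 9) * Real.Gamma (1 / 3) : ℝ) : ℂ) := by
      rw [← hP]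
      ring
    rw [hR', kap]
    norm_num
    field_simp
    linear_combination (12 * (T : ℂ) ^ 2 * Real.pi * (Real.Gamma (1 / 3) : ℝ)) * h33
  rw [← hT2, ← Real.norm_eq_abs, ← norm_real, key]
  refine (norm_sub_le _ _).trans ?_
  rw [norm_mul, norm_real, Real.norm_eq_abs, abs_of_nonneg (by positivity), norm_one]
  have h4 : Real.sqrt 3 / 2 ≤ 1 := by nlinarith
  have h5 : T ^ 2 * ‖R‖ ≤ K * ∑' a : O, N a ^ (-(3 / 2) : ℝ) := by
    have := mul_le_mul_of_nonneg_left hRle (sq_nonneg T)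
    rwa [← mul_assoc, mul_inv_cancel₀ (by positivity), one_mul] at this
  have h6 : 0 ≤ T ^ 2 * ‖R‖ := by positivity
  nlinarith

theorem main (hB : Bas) : ∃ C : ℝ, 0 ≤ C ∧ ∀ c : ℝ, 0 < c →
    (Summable fun j : O => Real.exp (-(c * N j ^ 3))) ∧
    |∑' j : O, (if j = 0 then 0 else Real.exp (-(c * N j ^ 3))) -
      2 * Real.pi * Real.Gamma (1 / 3) / (3 * Real.sqrt 3) * c ^ (-1 / 3 : ℝ)| ≤ C ∧
    ∑' j : O, (if j = 0 then 0 else Real.exp (-(c * N j ^ 3))) ≤ C * c ^ (-1 / 3 : ℝ) := by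
  obtain ⟨C, hC, h⟩ := small hB
  set a : ℝ := 2 * Real.pi * Real.Gamma (1 / 3) / (3 * Real.sqrt 3) with ha
  have ha0 : 0 ≤ a := by
    have := Real.Gamma_pos_of_pos (show (0 : ℝ) < 1 / 3 by norm_num)
    positivity
  set S3 : ℝ := ∑' j : O, N j ^ (-3 : ℝ) with hS3
  have hS0 : 0 ≤ S3 := tsum_nonneg fun a => Real.rpow_nonneg (Nat.cast_nonneg _) _
  refine ⟨C + a + S3, by positivity, fun c hc => ⟨summ hB hc, ?_⟩⟩
  have hp : 0 ≤ c ^ (-1 / 3 : ℝ) := by positivity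
  have hn : 0 ≤ ∑' j : O, (if j = 0 then 0 else Real.exp (-(c * N j ^ 3))) :=
    tsum_nonneg fun j => by split_ifs <;> positivity
  rcases le_total c 1 with h1 | h1
  · have h2 := h c hc h1
    have h3 : 1 ≤ c ^ (-1 / 3 : ℝ) := Real.one_le_rpow_of_pos_of_le_one_of_nonpos hc h1 (by norm_num)
    refine ⟨by linarith, ?_⟩
    have h4 := (abs_le.1 h2).2
    nlinarith [mul_nonneg hS0 hp]
  · have h2 := big hB hc
    have h3 : c⁻¹ ≤ c ^ (-1 / 3 : ℝ) := by
      rw [← Real.rpow_neg_one]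
      exact Real.rpow_le_rpow_of_exponent_le h1 (by norm_num)
    have h4 : c ^ (-1 / 3 : ℝ) ≤ 1 := Real.rpow_le_one_of_one_le_of_nonpos h1 (by norm_num)
    have h5 := mul_le_mul_of_nonneg_right h3 hS0
    constructor
    · rw [abs_le]
      constructor <;> nlinarith [mul_nonneg ha0 hp, mul_nonneg hS0 hp]
    · nlinarith [mul_nonneg ha0 hp, mul_nonneg hC hp]

end Vale.Agent.P006.D.C1M
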