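import Vale.Agent.P006.D
import Vale.Agent.P006.D.C1a
import Vale.Agent.P026.M.W1

namespace Vale.Agent.P006.D
open Vale.Agent.P026

theorem c1S : C1Stmt := C1M.main W1.bas

end Vale.Agent.P006.D
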