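import Vale.Agent.P006.D

noncomputable section

namespace Vale.Agent.P006.D
open Vale.Agent.P026

theorem csS : CSStmt := by
  have hpi := Real.pi_pos
  have h3 : 0 < Real.sqrt 3 := by positivity
  have h33 : Real.sqrt 3 * Real.sqrt 3 = 3 := Real.mul_self_sqrt (by norm_num)
  have g2 : 0 < Real.Gamma (2 / 3) := Real.Gamma_pos_of_pos (by norm_num)
  have hG : Real.Gamma (1 / 3) * Real.Gamma (2 / 3) = 2 * Real.pi / Real.sqrt 3 := by
    have h := Real.Gamma_mul_Gamma_one_sub (1 / 3)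
    rw [show (1 : ℝ) - 1 / 3 = 2 / 3 by norm_num, show Real.pi * (1 / 3) = Real.pi / 3 by ring,
      Real.sin_pi_div_three] at h
    rw [h]
    field_simp
  have t0 : 0 < (2 * Real.pi) ^ (2 / 3 : ℝ) := by positivity
  have t3 : ((2 * Real.pi) ^ (2 / 3 : ℝ)) ^ 3 = (2 * Real.pi) ^ 2 := by
    rw [← Real.rpow_natCast, ← Real.rpow_mul (by positivity), ← Real.rpow_natCast]
    norm_num
  have e9 : (9 / sg) ^ (1 / 3 : ℝ) = 3 / (2 * Real.pi) ^ (2 / 3 : ℝ) := by
    have e1 : 9 / sg = (3 / (2 * Real.pi) ^ (2 / 3 : ℝ)) ^ 3 := by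
      rw [div_pow, t3, sg]
      field_simp
      norm_num
    rw [e1, ← Real.rpow_natCast, ← Real.rpow_mul (by positivity)]
    norm_num
  refine ⟨?_, ?_, ?_, ?_⟩
  · have g1 : Real.Gamma (1 / 3) = 2 * Real.pi / Real.sqrt 3 / Real.Gamma (2 / 3) := by
      rw [← hG]
      field_simp
    unfold c3 c4 c0 K.cstar
    rw [e9, g1]
    generalize (2 * Real.pi) ^ (2 / 3 : ℝ) = t at t0 t3
    field_simp
    linear_combination (-Real.sqrt 3 ^ 2) * t3 - (2 * Real.pi) ^ 2 * h33
  · unfold c4 K.rho0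
    field_simp
  · unfold K.cstar
    positivity
  · unfold K.rho0
    positivity

end Vale.Agent.P006.D
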