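import Vale.Agent.P006.D

/-! P006 branch D, row CU. -/

noncomputable section
open Complex
open scoped Classical ComplexConjugate

namespace Vale.Agent.P006.D
open Vale.Agent.P026

namespace CUM

lemma fib {F : O → ℂ} (hF : Summable fun j => if j = 0 then 0 else F (j ^ 3)) :
    ∑' h, (if h ≠ 0 ∧ IsCu h then F h else 0) = 3⁻¹ * ∑' j, if j = 0 then 0 else F (j ^ 3) := by
  have w3 := W1.bas.b1.w3
  have h := (hF.hasSum.tsum_fiberwise fun j => j ^ 3).tsum_eq
  rw [← h, ← tsum_mul_left]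
  refine tsum_congr fun c => ?_
  rw [tsum_subtype ((fun j : O => j ^ 3) ⁻¹' {c}) fun j => if j = 0 then 0 else F (j ^ 3)]
  split_ifs with hc
  · obtain ⟨c0, j, rfl⟩ := hc
    have j0 : j ≠ 0 := fun h => c0 (by simp [h])
    have w0 : wO ≠ 0 := by decide
    have a1 : (wO * j) ^ 3 = j ^ 3 := by linear_combination (wO - 1) * j ^ 3 * w3
    have a2 : (wO ^ 2 * j) ^ 3 = j ^ 3 := by
      linear_combination (wO ^ 4 - wO ^ 3 + wO - 1) * j ^ 3 * w3
    have d1 : j ≠ wO * j := fun h => absurd (mul_right_cancel₀ j0 ((one_mul j).trans h)) (by decide)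
    have d2 : j ≠ wO ^ 2 * j := fun h => absurd (mul_right_cancel₀ j0 ((one_mul j).trans h)) (by decide)
    have d3 : wO * j ≠ wO ^ 2 * j := fun h => absurd (mul_right_cancel₀ j0 h) (by decide)
    rw [tsum_eq_sum (s := {j, wO * j, wO ^ 2 * j})]
    · rw [Finset.sum_insert (by simp [d1, d2]), Finset.sum_pair d3]
      simp only [Set.indicator, Set.mem_preimage, Set.mem_singleton_iff, a1, a2, if_true, j0,
        mul_eq_zero, w0, pow_eq_zero_iff two_ne_zero, or_self, if_false]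
      ring
    · intro x hx
      refine Set.indicator_of_notMem (fun h => hx ?_) _
      have h' : x ^ 3 = j ^ 3 := h
      have : (x - j) * ((x - wO * j) * (x - wO ^ 2 * j)) = 0 := by
        linear_combination h' + (-(x ^ 2 * j) + wO * x * j ^ 2 - (wO - 1) * j ^ 3) * w3
      simpa [sub_eq_zero] using this
  · rw [tsum_congr (g := fun _ => 0), tsum_zero, mul_zero]
    intro j
    by_cases hj : j ^ 3 = c
    · by_cases j0 : j = 0
      · simp [Set.indicator, j0]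
      · exact absurd ⟨hj ▸ pow_ne_zero _ j0, j, hj.symm⟩ hc
    · simp [Set.indicator, hj]

lemma eQ3 (j : O) : eQ (j ^ 3) 3 = 1 := by
  have e : j ^ 3 = ((j.re ^ 3 + j.im ^ 3 - 3 * j.re * j.im ^ 2 : ℤ) : O) +
      ((3 : ℤ) : O) * ⟨0, j.re ^ 2 * j.im - j.re * j.im ^ 2⟩ := by
    ext <;> simp only [pow_succ, pow_zero, one_mul, QuadraticAlgebra.re_mul, QuadraticAlgebra.im_mul,
      QuadraticAlgebra.re_add, QuadraticAlgebra.im_add, QuadraticAlgebra.re_intCast,
      QuadraticAlgebra.im_intCast, Int.cast_id] <;> ring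
  rw [e, W1.bas.b1.eQ_add, W1.bas.b1.eQ_dvd (_ * _) 3 ⟨_, by push_cast; rfl⟩, mul_one,
    eQ, map_intCast, map_ofNat, psi]
  generalize j.re ^ 3 + j.im ^ 3 - 3 * j.re * j.im ^ 2 = z
  simp

lemma cub3 (j : O) {n : O} (h : Prim n) : cub (j ^ 3) n = if IsCoprime j n then 1 else 0 := by
  rw [W1.bas.b6.pow_l _ _ _ (W1.bas.b2.cop n h)]
  split_ifs with hc
  · exact W1.bas.b6.cube _ _ hc
  · rw [W1.bas.b6.zero _ _ (W1.bas.b2.ne n h) hc]; simp

def uu (c : ℝ) (n : O) : ℝ :=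
  ∑' j : O, if j = 0 then 0 else Real.exp (-(c * N j ^ 3)) * if IsCoprime j n then 0 else 1

lemma sm {c : ℝ} (hs : Summable fun j : O => Real.exp (-(c * N j ^ 3))) {g : O → ℝ}
    (h0 : ∀ j, 0 ≤ g j) (h1 : ∀ j, g j ≤ 1) :
    Summable fun j : O => if j = 0 then 0 else Real.exp (-(c * N j ^ 3)) * g j :=
  hs.of_nonneg_of_le (fun j => by have := h0 j; split_ifs <;> positivity) fun j => by
    split_ifs
    · positivity
    · exact mul_le_of_le_one_right (Real.exp_pos _).le (h1 j)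

lemma uu0 (c : ℝ) (n : O) : 0 ≤ uu c n := tsum_nonneg fun j => by split_ifs <;> positivity

lemma inner {C c c' M : ℝ} {n1 n2 : O} (h1 : Prim n1) (h2 : Prim n2) (hc : c = sg * M / (9 * (N n1 * N n2)))
    (hc' : c' ≤ c) (s : Summable fun j : O => Real.exp (-(c * N j ^ 3)))
    (s' : Summable fun j : O => Real.exp (-(c' * N j ^ 3)))
    (hC : |∑' j : O, (if j = 0 then 0 else Real.exp (-(c * N j ^ 3))) - c0 * c ^ (-1 / 3 : ℝ)| ≤ C) :
    ‖(∑' h : O, if h ≠ 0 ∧ IsCu h then eQ h 3 * (conj (cub h n1) * cub h n2) * ew M n1 n2 h else 0) -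
      ((c0 / 3 * c ^ (-1 / 3 : ℝ) : ℝ) : ℂ)‖ ≤ C + uu c' n1 + uu c' n2 := by
  set g : O → ℝ := fun j => (if IsCoprime j n1 then 1 else 0) * if IsCoprime j n2 then 1 else 0 with hg
  have g0 : ∀ j, 0 ≤ g j := fun j => by simp only [hg]; split_ifs <;> norm_num
  have g1 : ∀ j, g j ≤ 1 := fun j => by simp only [hg]; split_ifs <;> norm_num
  have e : ∀ j : O, (if j = 0 then 0 else
      eQ (j ^ 3) 3 * (conj (cub (j ^ 3) n1) * cub (j ^ 3) n2) * ew M n1 n2 (j ^ 3)) =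
      ((if j = 0 then 0 else Real.exp (-(c * N j ^ 3)) * g j : ℝ) : ℂ) := fun j => by
    split_ifs
    · simp
    · rw [eQ3, cub3 j h1, cub3 j h2, ew, W1.bas.b1.N_pow, ofReal_mul, ofReal_exp, hc, ofReal_neg,
        div_mul_eq_mul_div]
      simp only [hg]
      split_ifs <;> simp
  have s1 := sm s g0 g1
  have s2 := sm s (g := fun j => 1 - g j) (fun j => by linarith [g1 j]) fun j => by linarith [g0 j]
  have t1 := sm s' (g := fun j => if IsCoprime j n1 then 0 else 1) (fun j => by split_ifs <;> norm_num)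
    fun j => by split_ifs <;> norm_num
  have t2 := sm s' (g := fun j => if IsCoprime j n2 then 0 else 1) (fun j => by split_ifs <;> norm_num)
    fun j => by split_ifs <;> norm_num
  rw [fib (F := fun h => eQ h 3 * (conj (cub h n1) * cub h n2) * ew M n1 n2 h)
    (by simp only [e]; exact summable_ofReal.2 s1)]
  simp only [e]
  rw [← ofReal_tsum, show (3⁻¹ : ℂ) = ((3⁻¹ : ℝ) : ℂ) by simp, ← ofReal_mul, ← ofReal_sub, norm_real,
    Real.norm_eq_abs]
  have a1 : ∑' j : O, (if j = 0 then 0 else Real.exp (-(c * N j ^ 3))) =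
      (∑' j : O, if j = 0 then 0 else Real.exp (-(c * N j ^ 3)) * g j) +
      ∑' j : O, if j = 0 then 0 else Real.exp (-(c * N j ^ 3)) * (1 - g j) := by
    rw [← s1.tsum_add s2]
    exact tsum_congr fun j => by split_ifs <;> ring
  have a2 : 0 ≤ ∑' j : O, if j = 0 then 0 else Real.exp (-(c * N j ^ 3)) * (1 - g j) :=
    tsum_nonneg fun j => by have := sub_nonneg.2 (g1 j); split_ifs <;> positivity
  have a3 : (∑' j : O, if j = 0 then 0 else Real.exp (-(c * N j ^ 3)) * (1 - g j)) ≤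
      uu c' n1 + uu c' n2 := by
    rw [uu, uu, ← t1.tsum_add t2]
    refine s2.tsum_le_tsum (fun j => ?_) (t1.add t2)
    have n0 : 0 ≤ N j ^ 3 := pow_nonneg (Nat.cast_nonneg _) 3
    have x : Real.exp (-(c * N j ^ 3)) ≤ Real.exp (-(c' * N j ^ 3)) :=
      Real.exp_le_exp.2 (by nlinarith)
    have x0 := Real.exp_pos (-(c' * N j ^ 3))
    simp only [hg]
    split_ifs <;> linarith
  rw [a1, abs_le] at hC
  rw [abs_le]
  constructor <;> linarith [uu0 c' n1, uu0 c' n2]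

lemma sg0 : 0 < sg := by unfold sg; positivity

lemma rp {M a b : ℝ} (hM : 0 < M) (ha : 0 < a) (hb : 0 < b) :
    (sg * M / (9 * (a * b))) ^ (-1 / 3 : ℝ) =
      (9 / sg) ^ (1 / 3 : ℝ) * M ^ (-1 / 3 : ℝ) * (a ^ (-1 / 6 : ℝ) * b ^ (-1 / 6 : ℝ)) * Real.sqrt (a * b) := by
  have := sg0
  rw [Real.sqrt_eq_rpow, Real.rpow_def_of_pos (by positivity), Real.rpow_def_of_pos (by positivity),
    Real.rpow_def_of_pos hM, Real.rpow_def_of_pos ha, Real.rpow_def_of_pos hb,
    Real.rpow_def_of_pos (by positivity), Real.log_div (by positivity) (by positivity),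
    Real.log_div (by positivity) (by positivity), Real.log_mul this.ne' hM.ne',
    Real.log_mul (by positivity) (by positivity), Real.log_mul ha.ne' hb.ne']
  simp only [← Real.exp_add]
  congr 1
  ring

end CUM

open CUM

theorem cuS (h1 : C1Stmt) (h2 : NCStmt) : CUStmt := by
  obtain ⟨C, C0, hC⟩ := h1
  obtain ⟨D, D0, hD⟩ := h2
  have hB := W1.bas
  have s0 := sg0
  refine ⟨64 * C + 64 * D * (9 / sg) ^ (1 / 3 : ℝ), by positivity, fun M Y w b hM hY hw hb => ?_⟩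
  have Y0 : 0 < Y := by linarith
  have mem := (memS hB).1 Y
  set c' := sg * M / (9 * (Y * Y)) with hc'
  have c'0 : 0 < c' := by positivity
  set v : O → ℝ := fun n => C * ‖b n‖ ^ 2 + if b n ≠ 0 then uu c' n else 0 with hv
  have v0 : ∀ n, 0 ≤ v n := fun n => by
    have := uu0 c' n
    simp only [hv]; split_ifs <;> positivity
  have e : ((c3 * M ^ (-1 / 3 : ℝ) * ‖Sb Y b‖ ^ 2 : ℝ) : ℂ) = ∑ n1 ∈ SQ Y, ∑ n2 ∈ SQ Y,
      b n1 * conj (b n2) / (Real.sqrt (N n1 * N n2) : ℝ) *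
        ((c0 / 3 * (sg * M / (9 * (N n1 * N n2))) ^ (-1 / 3 : ℝ) : ℝ) : ℂ) := by
    rw [ofReal_mul, ofReal_pow, ← Complex.mul_conj', Sb, map_sum, Finset.sum_mul_sum, Finset.mul_sum]
    refine Finset.sum_congr rfl fun n1 m1 => ?_
    rw [Finset.mul_sum]
    refine Finset.sum_congr rfl fun n2 m2 => ?_
    have p1 := Z0.N_pos (hB.b2.ne _ ((mem _).1 m1).1.1)
    have p2 := Z0.N_pos (hB.b2.ne _ ((mem _).1 m2).1.1)
    have : ((Real.sqrt (N n1 * N n2) : ℝ) : ℂ) ≠ 0 := ofReal_ne_zero.2 (by positivity)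
    rw [rp hM p1 p2, map_mul, conj_ofReal, c3]
    push_cast
    field_simp
  rw [e, QP, ← Finset.sum_sub_distrib]
  have key : ∀ n1 ∈ SQ Y, ∀ n2 ∈ SQ Y, ‖b n1 * conj (b n2) / (Real.sqrt (N n1 * N n2) : ℝ) *
      (∑' h : O, if h ≠ 0 ∧ IsCu h then eQ h 3 * (conj (cub h n1) * cub h n2) * ew M n1 n2 h else 0) -
      b n1 * conj (b n2) / (Real.sqrt (N n1 * N n2) : ℝ) *
        ((c0 / 3 * (sg * M / (9 * (N n1 * N n2))) ^ (-1 / 3 : ℝ) : ℝ) : ℂ)‖ ≤ 2 / Y * (v n1 + v n2) := by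
    intro n1 m1 n2 m2
    have := v0 n1
    have := v0 n2
    by_cases z1 : b n1 = 0
    · simp only [z1, zero_mul, zero_div, sub_zero, norm_zero]; positivity
    by_cases z2 : b n2 = 0
    · simp only [z2, map_zero, mul_zero, zero_mul, zero_div, sub_zero, norm_zero]; positivity
    obtain ⟨a1, a2, a3, -⟩ := hb.supp n1 z1
    obtain ⟨b1, b2, b3, -⟩ := hb.supp n2 z2
    have p1 : 0 < N n1 := by linarith
    have p2 : 0 < N n2 := by linarith
    have cc : c' ≤ sg * M / (9 * (N n1 * N n2)) := by rw [hc']; gcongr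
    have k := inner a1.1 b1.1 rfl cc (hC _ (by positivity)).1 (hC _ c'0).1 (hC _ (by positivity)).2.1
    have q : Y / 2 ≤ Real.sqrt (N n1 * N n2) := Real.le_sqrt_of_sq_le (by rw [sq]; gcongr)
    have l1 := hb.le n1
    have l2 := hb.le n2
    have u1 := uu0 c' n1
    have u2 := uu0 c' n2
    have x1 := norm_nonneg (b n1)
    have x2 := norm_nonneg (b n2)
    rw [← mul_sub, norm_mul, norm_div, norm_mul, norm_conj, norm_real, Real.norm_eq_abs,
      abs_of_nonneg (Real.sqrt_nonneg _)]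
    calc _ ≤ ‖b n1‖ * ‖b n2‖ / (Y / 2) * (C + uu c' n1 + uu c' n2) := by gcongr
      _ = 2 / Y * (C * (‖b n1‖ * ‖b n2‖) + ‖b n1‖ * ‖b n2‖ * (uu c' n1 + uu c' n2)) := by
        field_simp
        ring
      _ ≤ 2 / Y * (C * (‖b n1‖ ^ 2 + ‖b n2‖ ^ 2) + 1 * 1 * (uu c' n1 + uu c' n2)) := by
        gcongr
        nlinarith
      _ = _ := by simp only [hv, z1, z2, ne_eq, not_false_eq_true, if_true]; ring
  have cd := hB.b3.card_le Y (SQ Y) Y0.le fun n hn => ⟨hB.b2.ne _ ((mem _).1 hn).1.1, ((mem _).1 hn).2⟩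
  have sv : ∑ n ∈ SQ Y, v n ≤ C * nb Y b + D * Y * c' ^ (-1 / 3 : ℝ) * w ^ (-1 / 2 : ℝ) := by
    simp only [hv]
    rw [Finset.sum_add_distrib, ← Finset.mul_sum, ← Finset.sum_filter]
    refine add_le_add le_rfl (le_trans (le_of_eq ?_) ((hD Y w ((SQ Y).filter fun n => b n ≠ 0) Y0.le hw
      fun n hn => ?_).1 c' c'0))
    · simp only [uu]
      rw [← Summable.tsum_finsetSum fun n _ => sm (hC _ c'0).1 (fun j => by split_ifs <;> norm_num)
        fun j => by split_ifs <;> norm_num]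
      refine tsum_congr fun j => ?_
      split_ifs
      · simp
      · rw [← Finset.mul_sum, Finset.card_filter]
        push_cast
        simp only [ite_not]
    · have := hb.supp n (Finset.mem_filter.1 hn).2
      exact ⟨this.1.1, this.2.2⟩
  have r : c' ^ (-1 / 3 : ℝ) * Y = (9 / sg) ^ (1 / 3 : ℝ) * M ^ (-1 / 3 : ℝ) * Y ^ (5 / 3 : ℝ) := by
    rw [hc', rp hM Y0 Y0, Real.sqrt_mul_self Y0.le, show (5 / 3 : ℝ) = -1 / 6 + -1 / 6 + 1 + 1 by norm_num,
      Real.rpow_add Y0, Real.rpow_add Y0, Real.rpow_add Y0, Real.rpow_one]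
    ring
  have nb0 : 0 ≤ nb Y b := Finset.sum_nonneg fun _ _ => by positivity
  have sv0 : 0 ≤ ∑ n ∈ SQ Y, v n := Finset.sum_nonneg fun n _ => v0 n
  calc _ ≤ ∑ n1 ∈ SQ Y, ∑ n2 ∈ SQ Y, 2 / Y * (v n1 + v n2) := by
        refine norm_sum_le_of_le _ fun n1 m1 => ?_
        rw [← Finset.sum_sub_distrib]
        refine norm_sum_le_of_le _ fun n2 m2 => le_trans (le_of_eq ?_) (key n1 m1 n2 m2)
        congr 3
        exact tsum_congr fun h => by congr
    _ = 4 / Y * (SQ Y).card * ∑ n ∈ SQ Y, v n := by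
        simp only [← Finset.mul_sum, Finset.sum_add_distrib, Finset.sum_const, nsmul_eq_mul]
        ring
    _ ≤ 4 / Y * (16 * Y) * (C * nb Y b + D * Y * c' ^ (-1 / 3 : ℝ) * w ^ (-1 / 2 : ℝ)) := by gcongr
    _ = 64 * C * nb Y b + 64 * D * (c' ^ (-1 / 3 : ℝ) * Y) * w ^ (-1 / 2 : ℝ) := by
        field_simp
        ring
    _ ≤ _ := by
        rw [r]
        have : 0 ≤ 64 * D * (9 / sg) ^ (1 / 3 : ℝ) * nb Y b := by positivity
        have : 0 ≤ 64 * C * (M ^ (-1 / 3 : ℝ) * Y ^ (5 / 3 : ℝ) * w ^ (-1 / 2 : ℝ)) := by positivity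
        nlinarith

end Vale.Agent.P006.D
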