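import Vale.Agent.P006.D

/-! P006 branch D: the square term. -/

noncomputable section
open Complex
open scoped Classical ComplexConjugate

namespace Vale.Agent.P006.D
open Vale.Agent.P026

namespace D1M

theorem cO : Countable O :=
  Function.Injective.countable (f := fun a : O => (a.re, a.im)) fun a b h => by
    ext
    · exact congrArg Prod.fst h
    · exact congrArg Prod.snd h

theorem N0 (n : O) : 0 ≤ N n := Nat.cast_nonneg _

theorem N_one : N 1 = 1 := by simp [N, ZKM.Nn_one]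

theorem mSQ {X : ℝ} {n : O} : n ∈ SQ X ↔ SP n ∧ N n ≤ X := (memS W1.bas).1 X n

theorem one_mem {Y : ℝ} (hY : 1 ≤ Y) : (1 : O) ∈ SQ Y :=
  mSQ.2 ⟨⟨W1.bas.b2.one, squarefree_one⟩, by rw [N_one]; exact hY⟩

theorem gF_nn (X : ℝ) (a : O → ℂ) (f m : O) : 0 ≤ gF X a f m := by
  unfold gF; split_ifs <;> positivity

theorem nb_nn (Y : ℝ) (b : O → ℂ) : 0 ≤ nb Y b := Finset.sum_nonneg fun _ _ => sq_nonneg _

theorem eta_nn {w R δ : ℝ} (hw : 1 ≤ w) (hR : 1 ≤ R) (hδ : 0 ≤ δ) : 0 ≤ eta w R δ := by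
  have : 0 < w := by linarith
  have : 0 < R := by linarith
  unfold eta; positivity

theorem gF_one (Y : ℝ) (b : O → ℂ) (m : O) :
    gF Y (bg b) 1 m = if Prim m then ‖cg Y b m‖ ^ 2 else 0 := by
  unfold gF cg
  congr 3
  refine Finset.sum_congr rfl fun n hn => ?_
  simp only [sh, one_mul, hn, if_true, one_pow, W1.bas.b6.one_l, mul_one, bg]

theorem VV_nn (M x : ℝ) : 0 ≤ VV M x := (Real.exp_pos _).le

end D1M

open D1M

theorem d1S (hI : IDStmt) (hP : P1Stmt) (hT : TRDStmt) (hK : CSStmt) : D1Stmt := by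
  obtain ⟨C1, hC1, hP⟩ := hP
  obtain ⟨C2, hC2, hT⟩ := hT
  refine ⟨C2 * C1, by positivity, fun M Y w R δ b hM hY hw hR hδ hb hs => ?_⟩
  have := cO
  have hY0 : 0 < Y := by linarith
  have hne : ∀ f ∈ SQ Y, f ≠ 0 := fun f hf => W1.bas.b2.ne f (mSQ.1 hf).1.1
  have hnb := nb_nn Y b
  have he := eta_nn hw hR hδ
  have key := hT (↥(SQ Y) × O) (fun i => N i.1.1 * gF Y (bg b) i.1.1 i.2)
    (fun i => N i.1.1 ^ 2 * N i.2) (c4 * ‖Sb Y b‖ ^ 2) (C1 * nb Y b)
    (C1 * (Y ^ (5 / 3 : ℝ) * eta w R δ)) (C1 * Y ^ 2) (C1 * Y ^ (8 / 3 : ℝ)) M hM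
    (fun i => mul_nonneg (N0 _) (gF_nn _ _ _ _))
    (fun i hi => by
      have h1 := W1.bas.b1.N_one_le _ (hne _ i.1.2)
      have h2 : Prim i.2 := by
        by_contra hc
        exact hi (by simp [gF, hc])
      have h3 := W1.bas.b1.N_one_le _ (W1.bas.b2.ne _ h2)
      positivity)
    (by positivity) (by positivity) (by positivity) (by positivity)
    (fun Z hZ => by
      obtain ⟨s1, s2⟩ := hI Z Y (bg b) hZ
      have hs1 : ∀ f : ↥(SQ Y), Summable fun m =>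
          N f.1 * gF Y (bg b) f.1 m * Real.exp (-(N f.1 ^ 2 * N m / Z)) := fun f => by
        simpa only [mul_assoc] using (s1 f.1 (hne _ f.2)).mul_left (N f.1)
      have hsum : Summable fun i : ↥(SQ Y) × O =>
          N i.1.1 * gF Y (bg b) i.1.1 i.2 * Real.exp (-(N i.1.1 ^ 2 * N i.2 / Z)) :=
        (summable_prod_of_nonneg fun i =>
          mul_nonneg (mul_nonneg (N0 _) (gF_nn _ _ _ _)) (Real.exp_pos _).le).2
          ⟨hs1, Summable.of_finite⟩
      refine ⟨hsum, ?_⟩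
      have e : ∑' i : ↥(SQ Y) × O,
          N i.1.1 * gF Y (bg b) i.1.1 i.2 * Real.exp (-(N i.1.1 ^ 2 * N i.2 / Z)) =
          ∑ f ∈ SQ Y, N f * ∑' m : O, gF Y (bg b) f m * Real.exp (-(N f ^ 2 * N m / Z)) := by
        rw [hsum.tsum_prod, ← Finset.tsum_subtype (SQ Y)]
        refine tsum_congr fun f => ?_
        rw [← tsum_mul_left]
        exact tsum_congr fun m => by ring
      rw [e]
      have h := hP Z Y w R δ b hZ hY hw hR hδ hb hs
      rw [← s2, ← Complex.ofReal_sub, Complex.norm_real, Real.norm_eq_abs] at h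
      refine h.trans (le_of_eq ?_)
      unfold Er; ring)
  obtain ⟨k1, k2⟩ := key
  have o1 : (1 : O) ∈ SQ Y := one_mem (by linarith)
  have e1 : (fun m => if Prim m then ‖cg Y b m‖ ^ 2 * (N m ^ (1 / 6 : ℝ) * VV M (N m)) else 0) =
      (fun i : ↥(SQ Y) × O => N i.1.1 * gF Y (bg b) i.1.1 i.2 *
        ((N i.1.1 ^ 2 * N i.2) ^ (1 / 6 : ℝ) * VV M (N i.1.1 ^ 2 * N i.2))) ∘
        fun m => (⟨1, o1⟩, m) := by
    funext m
    simp only [Function.comp, N_one, one_mul, one_pow, gF_one]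
    split_ifs <;> simp
  have inj : Function.Injective fun m : O => ((⟨1, o1⟩, m) : ↥(SQ Y) × O) :=
    fun a a' h => congrArg Prod.snd h
  rw [e1]
  refine ⟨k1.comp_injective inj, ?_⟩
  refine (tsum_comp_le_tsum_of_inj k1 (fun i => mul_nonneg (mul_nonneg (N0 _) (gF_nn _ _ _ _))
    (mul_nonneg (Real.rpow_nonneg (mul_nonneg (sq_nonneg _) (N0 _)) _) (VV_nn _ _))) inj).trans
    (k2.trans (le_of_eq ?_))
  rw [← hK.2.1]
  unfold Er; ring

end Vale.Agent.P006.D
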