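import Vale.Agent.P006.D

noncomputable section
open Complex Finset
open scoped Classical ComplexConjugate

namespace Vale.Agent.P006.D
open Vale.Agent.P026

namespace D2M

lemma cc_eq {n : O} (h : SP n) : K.cc n = gt n := by
  unfold K.cc gt
  have := W1.bb.eq n 1 h.1 W1.bas.b2.one h.2
  have hN : N (1 : O) = 1 := by simpa using W1.bas.b1.N_pow 1 0
  simp only [one_pow, mul_one, hN, ofReal_one] at this
  rw [this]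

lemma pt {ρ : ℝ} {C M Y : ℝ} {n : O} {z : ℂ} (hz : ‖z‖ ≤ 1) (h : SP n) (hM : 0 ≤ M)
    (hY : 0 < Y) (h1 : Y / 2 < N n) (hT : ‖K.T0 n M - ρ * K.MM n * ((M ^ (5 / 6 : ℝ) : ℝ) : ℂ)‖ ≤ C) :
    ‖z * gt n * K.T0 n M - ((ρ * M ^ (5 / 6 : ℝ) : ℝ) : ℂ) * (z * ((N n ^ (-1 / 6 : ℝ) : ℝ) : ℂ))‖ ≤
      C + |ρ| * M ^ (5 / 6 : ℝ) * (2 * Y ^ (-1 / 6 : ℝ)) * |1 - K.EP n| := by
  have g1 : ‖gt n‖ = 1 := Z0.norm_gt h.1 h.2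
  have g2 : gt n * conj (gt n) = 1 := by rw [mul_conj, normSq_eq_norm_sq, g1]; simp
  have e : z * gt n * K.T0 n M - ((ρ * M ^ (5 / 6 : ℝ) : ℝ) : ℂ) * (z * ((N n ^ (-1 / 6 : ℝ) : ℝ) : ℂ)) =
      z * gt n * (K.T0 n M - ρ * K.MM n * ((M ^ (5 / 6 : ℝ) : ℝ) : ℂ)) -
        z * ((ρ * M ^ (5 / 6 : ℝ) * N n ^ (-1 / 6 : ℝ) * (1 - K.EP n) : ℝ) : ℂ) := by
    unfold K.MM
    rw [cc_eq h]
    push_cast
    linear_combination (z * ρ * ((M ^ (5 / 6 : ℝ) : ℝ) : ℂ) * ((N n ^ (-1 / 6 : ℝ) : ℝ) : ℂ) *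
      (K.EP n : ℂ)) * g2
  rw [e]
  refine (norm_sub_le _ _).trans (add_le_add ?_ ?_)
  · rw [norm_mul, norm_mul, g1, mul_one]
    exact (mul_le_of_le_one_left (norm_nonneg _) hz).trans hT
  · rw [norm_mul, norm_real, Real.norm_eq_abs]
    refine (mul_le_of_le_one_left (abs_nonneg _) hz).trans ?_
    have h2 : N n ^ (-1 / 6 : ℝ) ≤ 2 * Y ^ (-1 / 6 : ℝ) := by
      refine (Real.rpow_le_rpow_of_nonpos (by positivity) h1.le (by norm_num)).trans ?_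
      rw [Real.div_rpow hY.le zero_le_two, div_eq_mul_inv, mul_comm, ← Real.rpow_neg zero_le_two]
      refine mul_le_mul_of_nonneg_right ?_ (by positivity)
      exact (Real.rpow_le_rpow_of_exponent_le one_le_two (by norm_num : _ ≤ (1 : ℝ))).trans_eq
        (Real.rpow_one 2)
    have h3 : 0 ≤ N n := Nat.cast_nonneg _
    rw [abs_mul, abs_mul, abs_mul, abs_of_nonneg (Real.rpow_nonneg hM _),
      abs_of_nonneg (Real.rpow_nonneg h3 _)]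
    gcongr

end D2M

theorem d2S (hT : K.TI ((K.cstar * K.rho0 : ℝ) : ℂ)) (h2 : NCStmt) : D2Stmt := by
  obtain ⟨C1, h1⟩ := hT (1 / 48) (by norm_num)
  obtain ⟨C2, c2, h2⟩ := h2
  set ρ : ℝ := K.cstar * K.rho0
  refine ⟨16 * |C1| + 2 * |ρ| * C2, by positivity, fun M Y w b hY hM hw hb => ?_⟩
  have Y0 : 0 < Y := by linarith
  have M1 : 1 ≤ M := by linarith
  have M0 : 0 < M := by linarith
  set T := (SQ Y).filter (fun n => b n ≠ 0) with hTd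
  have hT : ∀ n ∈ T, b n ≠ 0 := fun n hn => (mem_filter.1 hn).2
  have e : ∑ n ∈ SQ Y, b n * gt n * K.T0 n M - ((ρ * M ^ (5 / 6 : ℝ) : ℝ) : ℂ) * Sb Y b =
      ∑ n ∈ T, (b n * gt n * K.T0 n M -
        ((ρ * M ^ (5 / 6 : ℝ) : ℝ) : ℂ) * (b n * ((N n ^ (-1 / 6 : ℝ) : ℝ) : ℂ))) := by
    unfold Sb
    rw [mul_sum, ← sum_sub_distrib, hTd, sum_filter_of_ne]
    intro n _ h h0
    apply h
    rw [h0]; simp
  rw [e]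
  set D := |C1| * Y ^ (1 / 2 + 1 / 48 : ℝ) * M ^ (1 / 48 : ℝ) with hD
  have b1 : ∀ n ∈ T, ‖b n * gt n * K.T0 n M -
      ((ρ * M ^ (5 / 6 : ℝ) : ℝ) : ℂ) * (b n * ((N n ^ (-1 / 6 : ℝ) : ℝ) : ℂ))‖ ≤
      D + |ρ| * M ^ (5 / 6 : ℝ) * (2 * Y ^ (-1 / 6 : ℝ)) * |1 - K.EP n| := by
    intro n hn
    obtain ⟨s, l, u, -⟩ := hb.supp n (hT n hn)
    refine D2M.pt (hb.le n) s M0.le Y0 l ((h1 n M s.1 M1).trans ?_)
    have h3 : 0 ≤ N n := Nat.cast_nonneg _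
    rw [hD]
    gcongr
    exact le_abs_self _
  refine (norm_sum_le_of_le _ b1).trans ?_
  rw [sum_add_distrib, sum_const, nsmul_eq_mul, ← mul_sum]
  have c1 : (T.card : ℝ) ≤ 16 * Y := W1.bas.b3.card_le Y T Y0.le fun n hn =>
    ⟨W1.bas.b2.ne n (hb.supp n (hT n hn)).1.1, (hb.supp n (hT n hn)).2.2.1⟩
  have c3 := (h2 Y w T Y0.le hw fun n hn =>
    ⟨(hb.supp n (hT n hn)).1.1, (hb.supp n (hT n hn)).2.2.1, (hb.supp n (hT n hn)).2.2.2⟩).2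
  have p1 : Y ^ (-1 / 6 : ℝ) * Y = Y ^ (5 / 6 : ℝ) := by
    rw [← Real.rpow_add_one Y0.ne']; norm_num
  have p2 : Y * (Y ^ (1 / 2 + 1 / 48 : ℝ) * M ^ (1 / 48 : ℝ)) ≤
      M ^ (5 / 6 : ℝ) * Y ^ (5 / 6 : ℝ) * M ^ (-1 / 8 : ℝ) := by
    have q1 : Y * Y ^ (1 / 2 + 1 / 48 : ℝ) = Y ^ (5 / 6 : ℝ) * Y ^ (11 / 16 : ℝ) := by
      rw [mul_comm, ← Real.rpow_add_one Y0.ne', ← Real.rpow_add Y0]; norm_num
    have q2 : M ^ (5 / 6 : ℝ) * M ^ (-1 / 8 : ℝ) = M ^ (11 / 16 : ℝ) * M ^ (1 / 48 : ℝ) := by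
      rw [← Real.rpow_add M0, ← Real.rpow_add M0]; norm_num
    have q3 : Y ^ (11 / 16 : ℝ) ≤ M ^ (11 / 16 : ℝ) := by gcongr
    rw [← mul_assoc, q1, mul_comm (M ^ (5 / 6 : ℝ)), mul_assoc, mul_assoc, q2]
    gcongr
  have a1 : (T.card : ℝ) * D ≤ 16 * |C1| * (M ^ (5 / 6 : ℝ) * Y ^ (5 / 6 : ℝ) * M ^ (-1 / 8 : ℝ)) :=
    calc _ ≤ 16 * Y * D := by gcongr
      _ = 16 * |C1| * (Y * (Y ^ (1 / 2 + 1 / 48 : ℝ) * M ^ (1 / 48 : ℝ))) := by rw [hD]; ring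
      _ ≤ _ := by gcongr
  have a2 : |ρ| * M ^ (5 / 6 : ℝ) * (2 * Y ^ (-1 / 6 : ℝ)) * ∑ n ∈ T, |1 - K.EP n| ≤
      2 * |ρ| * C2 * (M ^ (5 / 6 : ℝ) * Y ^ (5 / 6 : ℝ) * w ^ (-1 / 2 : ℝ)) :=
    calc _ ≤ |ρ| * M ^ (5 / 6 : ℝ) * (2 * Y ^ (-1 / 6 : ℝ)) * (C2 * Y * w ^ (-1 / 2 : ℝ)) := by gcongr
      _ = _ := by rw [← p1]; ring
  have w0 : 0 ≤ w := by linarith
  have n1 : 0 ≤ 16 * |C1| * (M ^ (5 / 6 : ℝ) * Y ^ (5 / 6 : ℝ) * w ^ (-1 / 2 : ℝ)) := by positivity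
  have n2 : 0 ≤ 2 * |ρ| * C2 * (M ^ (5 / 6 : ℝ) * Y ^ (5 / 6 : ℝ) * M ^ (-1 / 8 : ℝ)) := by positivity
  linarith

end Vale.Agent.P006.D
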