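import Vale.Agent.P006.D

/-! P006 branch D: the terms with `e ≠ 1`. -/

noncomputable section
open Complex
open scoped Classical ComplexConjugate

namespace Vale.Agent.P006.D
open Vale.Agent.P026
namespace EEM

lemma r3 (x : ℝ) (hx : 0 < x) (a : ℝ) (j : ℤ) (h : 3 * a = j) : (x ^ 3) ^ a = x ^ j := by
  rw [← Real.rpow_natCast, ← Real.rpow_mul hx.le, ← Real.rpow_intCast, ← h]
  norm_num

lemma root (x : ℝ) (hx : 0 < x) : ∃ t : ℝ, 0 < t ∧ x = t ^ 3 :=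
  ⟨x ^ (1 / 3 : ℝ), by positivity, by
    rw [← Real.rpow_natCast, ← Real.rpow_mul hx.le]
    norm_num⟩

lemma alg (M y ρ C D : ℝ) (hM : 0 < M) (hy : 0 < y) :
    M * (C / y * (D * y * ρ * (y ^ 2 / M) ^ (1 / 3 : ℝ) + D * y ^ (2 / 3 : ℝ) * (y ^ 2 / M) ^ (2 / 3 : ℝ) +
      D * (y ^ 2 / M) ^ (4 / 3 : ℝ)) * (16 * y)) =
      16 * C * D * (M ^ (2 / 3 : ℝ) * y ^ (5 / 3 : ℝ) * ρ + M ^ (1 / 3 : ℝ) * y ^ 2 +
        M ^ (-1 / 3 : ℝ) * y ^ (8 / 3 : ℝ)) := by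
  obtain ⟨m, hm, rfl⟩ := root M hM
  obtain ⟨t, ht, rfl⟩ := root y hy
  have e : (t ^ 3) ^ 2 / m ^ 3 = (t ^ 2 / m) ^ 3 := by ring
  have p : 0 < t ^ 2 / m := by positivity
  rw [e, r3 _ p _ 1 (by norm_num), r3 _ p _ 2 (by norm_num), r3 _ p _ 4 (by norm_num),
    r3 _ ht _ 2 (by norm_num), r3 _ ht _ 5 (by norm_num), r3 _ ht _ 8 (by norm_num),
    r3 _ hm _ 2 (by norm_num), r3 _ hm _ 1 (by norm_num), r3 _ hm _ (-1) (by norm_num)]
  simp only [zpow_ofNat, zpow_neg, zpow_one]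
  field_simp

lemma nbd (X y : ℝ) (b : O → ℂ) (h1 : ∀ n ∈ SQ X, ‖b n‖ ≤ 1) (h2 : Shell y b) (hy : 0 ≤ y) :
    nb X b ≤ 16 * y := by
  unfold nb
  rw [← Finset.sum_filter_of_ne (p := fun n => b n ≠ 0) (fun n _ h g => h (by rw [g]; simp))]
  refine (Finset.sum_le_card_nsmul _ _ 1 fun n hn => ?_).trans ?_
  · exact pow_le_one₀ (norm_nonneg _) (h1 n (Finset.mem_filter.1 hn).1)
  · rw [nsmul_eq_mul, mul_one]
    refine W1.bas.b3.card_le y _ hy fun n hn => ?_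
    obtain ⟨a, c⟩ := Finset.mem_filter.1 hn
    exact ⟨W1.bas.b2.ne n (((memS W1.bas).1 X n).1 a).1.1, (h2 n c).2⟩

lemma shrink (M Y w n : ℝ) (hM : 0 < M) (hY : 0 < Y) (hw : 1 ≤ w) (hn : w < n) :
    M ^ (2 / 3 : ℝ) * (Y / n) ^ (5 / 3 : ℝ) * 1 + M ^ (1 / 3 : ℝ) * (Y / n) ^ 2 +
        M ^ (-1 / 3 : ℝ) * (Y / n) ^ (8 / 3 : ℝ) ≤
      n ^ (-(4 / 3) : ℝ) * (M ^ (2 / 3 : ℝ) * Y ^ (5 / 3 : ℝ) * w ^ (-1 / 3 : ℝ) + M ^ (1 / 3 : ℝ) * Y ^ 2 +
        M ^ (-1 / 3 : ℝ) * Y ^ (8 / 3 : ℝ)) := by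
  have n1 : 1 ≤ n := by linarith
  have n0 : 0 < n := by linarith
  have a : ∀ s : ℝ, (Y / n) ^ s = Y ^ s * n ^ (-s) := fun s => by
    rw [Real.div_rpow hY.le n0.le, Real.rpow_neg n0.le, div_eq_mul_inv]
  have b1 : n ^ (-(5 / 3) : ℝ) ≤ n ^ (-(4 / 3) : ℝ) * w ^ (-1 / 3 : ℝ) := by
    have : n ^ (-(5 / 3) : ℝ) = n ^ (-(4 / 3) : ℝ) * n ^ (-1 / 3 : ℝ) := by
      rw [← Real.rpow_add n0]
      norm_num
    rw [this]
    exact mul_le_mul_of_nonneg_left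
      (Real.rpow_le_rpow_of_nonpos (by linarith) hn.le (by norm_num)) (by positivity)
  have b2 : n ^ (-((2 : ℕ) : ℝ)) ≤ n ^ (-(4 / 3) : ℝ) :=
    Real.rpow_le_rpow_of_exponent_le n1 (by norm_num)
  have b3 : n ^ (-(8 / 3) : ℝ) ≤ n ^ (-(4 / 3) : ℝ) :=
    Real.rpow_le_rpow_of_exponent_le n1 (by norm_num)
  rw [← Real.rpow_natCast (Y / n), a, a, a, Real.rpow_natCast Y]
  calc _ ≤ M ^ (2 / 3 : ℝ) * (Y ^ (5 / 3 : ℝ) * (n ^ (-(4 / 3) : ℝ) * w ^ (-1 / 3 : ℝ))) * 1 +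
        M ^ (1 / 3 : ℝ) * (Y ^ 2 * n ^ (-(4 / 3) : ℝ)) +
        M ^ (-1 / 3 : ℝ) * (Y ^ (8 / 3 : ℝ) * n ^ (-(4 / 3) : ℝ)) := by gcongr
    _ = _ := by ring

lemma sh_le (Y w : ℝ) (b : O → ℂ) (hb : Ro Y w b) (e n : O) : ‖sh Y (bg b) e n‖ ≤ ‖b (e * n)‖ := by
  unfold sh bg
  split_ifs with h
  · obtain ⟨⟨h1, h2⟩, -⟩ := ((memS W1.bas).1 Y _).1 h
    rw [norm_mul, Z0.norm_gt h1 h2, mul_one]
  · simp

end EEM

open EEM in
theorem eeS (hF : FQStmt) (hS : STStmt) (hL : SLAStmt) : EEStmt := by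
  have hB := W1.bas
  obtain ⟨C, hC, hS⟩ := hS
  obtain ⟨D, hD, hL⟩ := hL
  have hZ := hB.b3.summ (4 / 3) (by norm_num)
  have p0 : ∀ a : O, 0 ≤ N a ^ (-(4 / 3) : ℝ) := fun a => Real.rpow_nonneg (Nat.cast_nonneg _) _
  set Z := ∑' a : O, N a ^ (-(4 / 3) : ℝ) with hZd
  have Z0' : 0 ≤ Z := tsum_nonneg p0
  set κ : ℝ := 2 * Real.pi / (9 * Real.sqrt 3) with hκ
  have κ0 : 0 < κ := by positivity
  refine ⟨κ * (1 + 16 * C * D * Z), by positivity, fun M Y w b hM hY hw hb => ?_⟩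
  have Y0 : 0 < Y := by linarith
  set G := M ^ (2 / 3 : ℝ) * Y ^ (5 / 3 : ℝ) * w ^ (-1 / 3 : ℝ) + M ^ (1 / 3 : ℝ) * Y ^ 2 +
    M ^ (-1 / 3 : ℝ) * Y ^ (8 / 3 : ℝ) with hG
  have G0 : 0 ≤ G := by positivity
  have key : ∀ e ∈ (SQ Y).erase 1, ‖Fm (Pq M) Y (sh Y (bg b) e)‖ ≤
      κ * (M * ‖b e‖ ^ 2 + 16 * C * D * G * N e ^ (-(4 / 3) : ℝ)) := by
    intro e he
    obtain ⟨e1, he⟩ := Finset.mem_erase.1 he
    obtain ⟨⟨pe, -⟩, eY⟩ := ((memS hB).1 Y e).1 he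
    have e0 := hB.b2.ne e pe
    have n1 := hB.b1.N_one_le e e0
    have n0 : 0 < N e := by linarith
    by_cases hwe : w < N e
    · have y1 : 1 ≤ Y / N e := by rwa [le_div_iff₀ n0, one_mul]
      have y0 : 0 < Y / N e := by linarith
      have shl : Shell (Y / N e) (fun n => sh Y (bg b) e n * conj (gt n)) := by
        intro n hn
        have h1 : b (e * n) ≠ 0 := by
          intro h0
          have := sh_le Y w b hb e n
          rw [h0, norm_zero, norm_le_zero_iff] at this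
          exact hn (by simp [this])
        obtain ⟨-, h2, h3, -⟩ := hb.supp _ h1
        rw [hB.b1.N_mul] at h2 h3
        constructor
        · rw [div_right_comm, div_lt_iff₀ n0]; linarith
        · rw [le_div_iff₀ n0]; linarith
      have q := hS (· ≠ 0) M Y (Y / N e) (D * (Y / N e) * 1) (D * (Y / N e) ^ (2 / 3 : ℝ)) D _ hM y0
        (by positivity) (by positivity) hD (fun _ h => h) shl
        (fun K hK => by rw [mul_one]; exact hL K _ hK y1)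
      have nbl := nbd Y (Y / N e) _ (fun n hn => by
        obtain ⟨⟨h1, h2⟩, -⟩ := ((memS hB).1 Y _).1 hn
        rw [norm_mul, RCLike.norm_conj, Z0.norm_gt h1 h2, mul_one]
        exact (sh_le Y w b hb e n).trans (hb.le _)) shl y0.le
      have q2 := q.trans (mul_le_mul_of_nonneg_left nbl (by positivity))
      have q3 := (mul_le_mul_of_nonneg_left q2 hM.le).trans_eq (alg M _ 1 C D hM y0)
      have q4 := q3.trans (mul_le_mul_of_nonneg_left (shrink M Y w (N e) hM Y0 hw hwe) (by positivity))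
      have d : ‖(if (1 : O) ∈ SQ Y then ((‖sh Y (bg b) e 1‖ ^ 2 : ℝ) : ℂ) else 0)‖ ≤ ‖b e‖ ^ 2 := by
        split_ifs
        · rw [norm_real, Real.norm_of_nonneg (by positivity)]
          have := sh_le Y w b hb e 1
          rw [mul_one] at this
          gcongr
        · rw [norm_zero]; positivity
      rw [(hF M Y _ hM).1, norm_mul, norm_real, Real.norm_of_nonneg (by positivity), mul_assoc]
      refine mul_le_mul_of_nonneg_left ?_ κ0.le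
      refine (mul_le_mul_of_nonneg_left (norm_add_le _ _) hM.le).trans ?_
      rw [mul_add]
      refine add_le_add (mul_le_mul_of_nonneg_left d hM.le) (q4.trans_eq ?_)
      ring
    · have z : ∀ n, sh Y (bg b) e n = 0 := by
        intro n
        rw [← norm_le_zero_iff]
        refine (sh_le Y w b hb e n).trans ?_
        rw [norm_le_zero_iff]
        by_contra h0
        have hu : ¬ IsUnit e := fun hu =>
          e1 (hB.b2.uniq e 1 pe hB.b2.one (associated_one_iff_isUnit.2 hu))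
        obtain ⟨p, hp, c, rfl⟩ := WfDvdMonoid.exists_irreducible_factor hu e0
        have := (hb.supp _ h0).2.2.2 p hp.prime ((dvd_mul_right p c).mul_right n)
        have c1 := hB.b1.N_one_le c (right_ne_zero_of_mul e0)
        rw [hB.b1.N_mul] at hwe
        have : 0 ≤ N p := Nat.cast_nonneg _
        nlinarith
      have : Fm (Pq M) Y (sh Y (bg b) e) = 0 := by
        unfold Fm
        simp [z]
      rw [this, norm_zero]
      have := p0 e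
      positivity
  refine (Finset.sum_le_sum key).trans ?_
  rw [← Finset.mul_sum, Finset.sum_add_distrib, ← Finset.mul_sum, ← Finset.mul_sum]
  have s1 : ∑ e ∈ (SQ Y).erase 1, ‖b e‖ ^ 2 ≤ nb Y b :=
    Finset.sum_le_sum_of_subset_of_nonneg (Finset.erase_subset _ _) fun _ _ _ => sq_nonneg _
  have s2 : ∑ e ∈ (SQ Y).erase 1, N e ^ (-(4 / 3) : ℝ) ≤ Z := hZ.sum_le_tsum _ fun a _ => p0 a
  have n0 : 0 ≤ nb Y b := Finset.sum_nonneg fun _ _ => sq_nonneg _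
  have t : 0 ≤ 16 * C * D * Z * (M * nb Y b) := by positivity
  calc _ ≤ κ * (M * nb Y b + 16 * C * D * G * Z) := by gcongr
    _ ≤ κ * ((1 + 16 * C * D * Z) * (M * nb Y b + G)) := by
        refine mul_le_mul_of_nonneg_left ?_ κ0.le
        nlinarith
    _ = _ := by rw [hG]; ring

end Vale.Agent.P006.D
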