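import Vale.Agent.P006.D
import Vale.Agent.P006.L.L1

/-! P006 row DFQ: the dual form in terms of `QP`. -/

noncomputable section
open Complex
open scoped Classical ComplexConjugate

namespace Vale.Agent.P006.D
open Vale.Agent.P026

namespace FQM

def TT (M : ℝ) (n1 n2 h : O) : ℂ := eQ h 3 * (conj (cub h n1) * cub h n2) * ew M n1 n2 h

lemma summT {M : ℝ} (hM : 0 < M) {n1 n2 : O} (h1 : Prim n1) (h2 : Prim n2) :
    Summable fun h => ‖TT M n1 n2 h‖ := by
  have hB := W1.bas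
  have a1 := L1M.Npos hB h1
  have a2 := L1M.Npos hB h2
  have sgp : 0 < sg := by unfold sg; have := Real.pi_pos; positivity
  have hM0 : 0 < 9 * (N n1 * N n2) / (sg * M) := by positivity
  refine Summable.of_nonneg_of_le (fun _ => norm_nonneg _) (fun h => ?_) (GPOM.gsum hB hM0)
  have ex : sg * M * N h / (9 * (N n1 * N n2)) = N h / (9 * (N n1 * N n2) / (sg * M)) := by
    field_simp
  rw [TT, ew, ex, norm_mul, norm_mul, norm_mul, RCLike.norm_conj, eQ, hB.b1.norm_psi, one_mul]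
  exact mul_le_of_le_one_left (norm_nonneg _)
    (mul_le_one₀ (hB.b6.norm_le _ _) (norm_nonneg _) (hB.b6.norm_le _ _))

lemma summP (P : O → Prop) {M : ℝ} (hM : 0 < M) {n1 n2 : O} (h1 : Prim n1) (h2 : Prim n2) :
    Summable fun h => if P h then TT M n1 n2 h else 0 := by
  refine Summable.of_norm_bounded (summT hM h1 h2) fun h => ?_
  split_ifs
  · exact le_rfl
  · rw [norm_zero]; exact norm_nonneg _

def Sg (P : O → Prop) (M : ℝ) (n1 n2 : O) : ℂ := ∑' h : O, if P h then TT M n1 n2 h else 0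

lemma QP_eq (P : O → Prop) (M X : ℝ) (b : O → ℂ) : QP P M X b =
    ∑ n1 ∈ SQ X, ∑ n2 ∈ SQ X, b n1 * conj (b n2) / (Real.sqrt (N n1 * N n2) : ℝ) *
      Sg P M n1 n2 := rfl

lemma mem {X : ℝ} {n : O} (h : n ∈ SQ X) : Prim n := (((memS W1.bas).1 X n).1 h).1.1

lemma N1 : N (1 : O) = 1 := by simpa using W1.bas.b1.N_int 1

lemma cub0 {n : O} (h : Prim n) : cub 0 n = if n = 1 then 1 else 0 := by
  split_ifs with e
  · rw [e]; exact W1.bas.b6.unit_r _ _ isUnit_one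
  · refine W1.bas.b6.zero _ _ (W1.bas.b2.ne _ h) fun c => e ?_
    exact Poi3.eq_one_of_dvd W1.bas h (isUnit_iff_dvd_one.1 (isCoprime_zero_left.1 c))

lemma T0 (M : ℝ) {n1 n2 : O} (h1 : Prim n1) (h2 : Prim n2) :
    TT M n1 n2 0 = if n1 = 1 ∧ n2 = 1 then 1 else 0 := by
  rw [TT, ew, W1.bas.b1.eQ_dvd _ _ (dvd_zero _), cub0 h1, cub0 h2, W1.bas.b1.N_zero]
  by_cases a : n1 = 1 <;> by_cases b : n2 = 1 <;> simp [a, b]

lemma one (M X : ℝ) (a : O → ℂ) (hM : 0 < M) :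
    Fm (Pq M) X a = ((2 * Real.pi / (9 * Real.sqrt 3) * M : ℝ) : ℂ) *
    ((if (1 : O) ∈ SQ X then ((‖a 1‖ ^ 2 : ℝ) : ℂ) else 0) +
      QP (· ≠ 0) M X (fun n => a n * conj (gt n))) := by
  have g1 : gt 1 * conj (gt 1) = 1 := by
    rw [mul_conj, normSq_eq_norm_sq, Z0.norm_gt W1.bas.b2.one squarefree_one]; simp
  have e0 : (if (1 : O) ∈ SQ X then ((‖a 1‖ ^ 2 : ℝ) : ℂ) else 0) =
      ∑ n1 ∈ SQ X, ∑ n2 ∈ SQ X, if n1 = 1 ∧ n2 = 1 then ((‖a 1‖ ^ 2 : ℝ) : ℂ) else 0 := by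
    simp only [ite_and]
    rw [Finset.sum_congr rfl fun n1 _ => Finset.sum_ite_irrel (n1 = 1) _ _ _]
    simp only [Finset.sum_const_zero, Finset.sum_ite_eq']
    split_ifs <;> rfl
  rw [e0, QP_eq, ← Finset.sum_add_distrib, Finset.mul_sum, Fm]
  refine Finset.sum_congr rfl fun n1 h1 => ?_
  rw [← Finset.sum_add_distrib, Finset.mul_sum]
  refine Finset.sum_congr rfl fun n2 h2 => ?_
  have p1 := mem h1
  have p2 := mem h2
  have e1 : ∀ h, eQ h 3 * (conj (cub h n1 * gt n1) * (cub h n2 * gt n2)) * ew M n1 n2 h =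
      (conj (gt n1) * gt n2) * TT M n1 n2 h := fun h => by
    rw [TT, map_mul]; ring
  have e2 : ∑' h, TT M n1 n2 h = TT M n1 n2 0 + Sg (· ≠ 0) M n1 n2 := by
    rw [(summT hM p1 p2).of_norm.tsum_eq_add_tsum_ite 0, Sg]
    congr 1
    exact tsum_congr fun h => by by_cases c : h = 0 <;> simp [c]
  have s3 : ((Real.sqrt 3 : ℝ) : ℂ) ≠ 0 := by
    exact_mod_cast (Real.sqrt_pos.2 (by norm_num : (0 : ℝ) < 3)).ne'
  have sq : ((Real.sqrt (N n1 * N n2) : ℝ) : ℂ) ≠ 0 := by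
    exact_mod_cast (Real.sqrt_pos.2 (mul_pos (L1M.Npos W1.bas p1) (L1M.Npos W1.bas p2))).ne'
  rw [Pq]
  simp only [e1]
  rw [tsum_mul_left, e2, T0 M p1 p2, kap]
  generalize Sg (· ≠ 0) M n1 n2 = S
  split_ifs with c
  · obtain ⟨rfl, rfl⟩ := c
    have : ((‖a 1‖ ^ 2 : ℝ) : ℂ) = a 1 * conj (a 1) := by rw [mul_conj, normSq_eq_norm_sq]
    rw [this, N1]
    simp only [map_mul, conj_conj, mul_one, Real.sqrt_one]
    push_cast
    field_simp
    linear_combination (a 1 * conj (a 1) * M) * g1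
  · simp only [map_mul, conj_conj]
    generalize Real.sqrt (N n1 * N n2) = q at sq
    push_cast
    field_simp
    ring

lemma two (M X R : ℝ) (b : O → ℂ) (hM : 0 < M) (hR : 1 ≤ R) :
    QP (· ≠ 0) M X b = QP (fun h => h ≠ 0 ∧ IsCu h) M X b +
    QP (fun h => h ≠ 0 ∧ ¬ IsCu h ∧ ¬ Big R h) M X b + QP (Big R) M X b := by
  simp only [QP_eq, ← Finset.sum_add_distrib, ← mul_add]
  refine Finset.sum_congr rfl fun n1 h1 => Finset.sum_congr rfl fun n2 h2 => ?_
  have p1 := mem h1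
  have p2 := mem h2
  congr 1
  unfold Sg
  rw [← (summP _ hM p1 p2).tsum_add (summP _ hM p1 p2),
    ← ((summP _ hM p1 p2).add (summP _ hM p1 p2)).tsum_add (summP _ hM p1 p2)]
  refine tsum_congr fun h => ?_
  have k : Big R h → h ≠ 0 ∧ ¬ IsCu h := fun hb => ⟨hb.1, fun ⟨j, hj⟩ => by
    have := hb.2 1 j (by rw [hj, one_mul])
    rw [N1] at this
    linarith⟩
  by_cases a : h = 0 <;> by_cases c : IsCu h <;> by_cases d : Big R h <;>
    first
    | (exfalso; have := k d; tauto)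
    | (simp only [ne_eq, a, c, d, not_true, not_false_iff, true_and, false_and, and_true, and_false,
        if_true, if_false, add_zero, zero_add]; done)
    | (subst a; simp [d])

end FQM

theorem fqS : FQStmt := fun M X a hM =>
  ⟨FQM.one M X a hM, fun R b hR => FQM.two M X R b hM hR⟩

end Vale.Agent.P006.D
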