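import Vale.Agent.P006.D
import Vale.Agent.P006.L.L2

/-! P006 branch D: the kernel identity over primary rows. -/

noncomputable section
open Complex Finset
open scoped Classical ComplexConjugate

namespace Vale.Agent.P006.D
open Vale.Agent.P026

namespace IDM
open L2M

lemma ki (hB : Bas) (hK : KQStmt) (M X : ℝ) (n1 n2 : O) (hM : 0 < M) (m1 : n1 ∈ SQ X)
    (m2 : n2 ∈ SQ X) :
    (∑ f ∈ SQ X, ∑ k1 ∈ SQ X, ∑ k2 ∈ SQ X, if f * k1 = n1 ∧ f * k2 = n2 then
      (N f : ℂ) * (cub (f ^ 2) k1 * conj (cub (f ^ 2) k2)) * Tq (M / N f ^ 2) k1 k2 else 0) =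
    ∑ e ∈ SQ X, ∑ k1 ∈ SQ X, ∑ k2 ∈ SQ X, if e * k1 = n1 ∧ e * k2 = n2 then Pq M k1 k2 else 0 := by
  obtain ⟨⟨p1, s1⟩, -⟩ := (msq hB).1 m1
  obtain ⟨⟨p2, s2⟩, -⟩ := (msq hB).1 m2
  obtain ⟨g, k1, k2, hg, h1, rfl, rfl, hc⟩ := hB.b2.gcd n1 n2 p1
  have h2 : Prim k2 := hB.b2.cancel _ _ hg p2
  have s3 := sqf3 s1 s2 hc
  have sub : ∀ f c, f * c = g → Squarefree (c * k1 * k2) := by
    intro f c e
    rw [← e, mul_assoc f, mul_assoc f] at s3
    exact s3.of_mul_right
  set H : O → O → ℂ := fun e f => mu e * (N f : ℂ) *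
    (cub (e * f ^ 2) k1 * conj (cub (e * f ^ 2) k2)) * Tq (M / (N e * N f ^ 2)) k1 k2 with hH
  rw [tri hB hg h1 h2 hc m1 m2 (fun f a b => (N f : ℂ) * (cub (f ^ 2) a * conj (cub (f ^ 2) b)) *
    Tq (M / N f ^ 2) a b), tri hB hg h1 h2 hc m1 m2 (fun _ a b => Pq M a b)]
  have L : ∀ f ∈ dv g, ∀ c ∈ dv g, (if f * c = g then (N f : ℂ) *
      (cub (f ^ 2) (c * k1) * conj (cub (f ^ 2) (c * k2))) * Tq (M / N f ^ 2) (c * k1) (c * k2) else 0) =
      if f * c = g then ∑ a ∈ dv g, ∑ b ∈ dv g, (if a * b = c then H a f else 0) else 0 := by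
    intro f hf c hc'
    split_ifs with e
    · have pf := ((mdv hB hg).1 hf).1
      have pc := ((mdv hB hg).1 hc').1
      have hN : 0 < N f := lt_of_lt_of_le one_pos (hB.b1.N_one_le f (hB.b2.ne _ pf))
      rw [← ext2 hB hg hc' (fun a _ => H a f), ← one hB pc (fun a => H a f),
        (hK (M / N f ^ 2) c k1 k2 (by positivity) pc h1 h2 (sub f c e)).1, mul_sum]
      have sg : Squarefree (f * c) := e ▸ s1.of_mul_left
      have cp : IsCoprime (f ^ 2) c := ((squarefree_mul_iff.1 sg).1.isCoprime).pow_left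
      have hu : cub (f ^ 2) c * conj (cub (f ^ 2) c) = 1 := by
        rw [mul_conj, normSq_eq_norm_sq, hB.b6.norm _ _ cp]; simp
      refine sum_congr rfl fun a _ => ?_
      simp only [hH]
      rw [hB.b6.mul_r _ _ _ (hB.b2.ne _ pc) (hB.b2.ne _ h1),
        hB.b6.mul_r _ _ _ (hB.b2.ne _ pc) (hB.b2.ne _ h2),
        hB.b6.mul_l a _ k1 (hB.b2.cop _ h1), hB.b6.mul_l a _ k2 (hB.b2.cop _ h2), div_div,
        mul_comm (N f ^ 2) (N a), map_mul, map_mul]
      linear_combination (N f * mu a * cub a k1 * conj (cub a k2) * cub (f ^ 2) k1 *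
        conj (cub (f ^ 2) k2) * Tq (M / (N a * N f ^ 2)) k1 k2) * hu
    · rfl
  have R : ∀ f ∈ dv g, ∀ c ∈ dv g, (if f * c = g then Pq M (c * k1) (c * k2) else 0) =
      if f * c = g then ∑ a ∈ dv g, ∑ b ∈ dv g, (if a * b = c then H a b else 0) else 0 := by
    intro f hf c hc'
    split_ifs with e
    · rw [← ext2 hB hg hc' H, (hK M c k1 k2 hM ((mdv hB hg).1 hc').1 h1 h2 (sub f c e)).2]
    · rfl
  rw [sum_congr rfl fun f hf => (sum_congr rfl (L f hf)).trans (col hB hg f fun a _ => H a f),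
    sum_congr rfl fun f hf => (sum_congr rfl (R f hf)).trans (col hB hg f H)]
  rw [sum_comm]
  conv_rhs => rw [sum_comm]
  refine sum_congr rfl fun a _ => ?_
  rw [sum_comm]
  refine sum_congr rfl fun r _ => sum_congr rfl fun f _ => ?_
  rw [show f * (a * r) = r * (a * f) by ring]

lemma hasSum_fm (hB : Bas) {M : ℝ} (hM : 0 < M) (X : ℝ) (a : O → ℂ) :
    HasSum (fun m : O => (((if Prim m then ‖∑ n ∈ SQ X, a n * cub m n‖ ^ 2 else 0) *
      Real.exp (-(N m / M)) : ℝ) : ℂ)) (Fm (Tq M) X a) := by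
  have h : ∀ n1 n2, HasSum (fun m : O => a n1 * conj (a n2) *
      (if Prim m then cub m n1 * conj (cub m n2) * cexp (-(N m / M : ℝ)) else 0))
      (a n1 * conj (a n2) * Tq M n1 n2) := by
    intro n1 n2
    refine (Summable.hasSum ?_).mul_left _
    refine Summable.of_norm_bounded (GPOM.gsum hB hM) fun m => ?_
    split_ifs
    · rw [norm_mul, norm_mul, RCLike.norm_conj]
      have := hB.b6.norm_le m n1
      have := hB.b6.norm_le m n2
      have h3 : ‖cub m n1‖ * ‖cub m n2‖ ≤ 1 := mul_le_one₀ ‹_› (norm_nonneg _) ‹_›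
      exact mul_le_of_le_one_left (norm_nonneg _) h3
    · rw [norm_zero]; exact norm_nonneg _
  have h2 := hasSum_sum (s := SQ X) fun n1 _ => hasSum_sum (s := SQ X) fun n2 _ => h n1 n2
  unfold Fm
  convert h2 using 2 with m
  split_ifs
  · rw [ofReal_mul, ← normSq_eq_norm_sq, ← mul_conj, map_sum, sum_mul_sum, sum_mul, ofReal_exp,
      ofReal_neg]
    refine sum_congr rfl fun n1 _ => ?_
    rw [sum_mul]
    refine sum_congr rfl fun n2 _ => ?_
    rw [map_mul]; ring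
  · simp

lemma hasSum_g (hB : Bas) {M : ℝ} (hM : 0 < M) (X : ℝ) (a : O → ℂ) {f : O} (hf : f ≠ 0) :
    HasSum (fun m : O => ((gF X a f m * Real.exp (-(N f ^ 2 * N m / M)) : ℝ) : ℂ))
      (Fm (Tq (M / N f ^ 2)) X fun k => sh X a f k * cub (f ^ 2) k) := by
  have hN : 0 < N f := lt_of_lt_of_le one_pos (hB.b1.N_one_le f hf)
  have := hasSum_fm hB (M := M / N f ^ 2) (by positivity) X fun k => sh X a f k * cub (f ^ 2) k
  have e : ∀ m : O, N m / (M / N f ^ 2) = N f ^ 2 * N m / M := fun m => by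
    rw [div_div_eq_mul_div, mul_comm]
  simp only [e] at this
  exact this

end IDM

open IDM L2M in
theorem idS (h : KQStmt) : IDStmt := by
  have hB := W1.bas
  intro M X a hM
  refine ⟨fun f hf => ?_, ?_⟩
  · exact Complex.summable_ofReal.1 (hasSum_g hB hM X a hf).summable
  · have key : ∑ f ∈ SQ X, (N f : ℂ) * Fm (Tq (M / N f ^ 2)) X (fun k => sh X a f k * cub (f ^ 2) k) =
        ∑ e ∈ SQ X, Fm (Pq M) X (sh X a e) := by
      have h1 := swap X a (fun f k1 k2 => (N f : ℂ) * (cub (f ^ 2) k1 * conj (cub (f ^ 2) k2)) *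
        Tq (M / N f ^ 2) k1 k2)
      have h2 := swap X a (fun _ k1 k2 => Pq M k1 k2)
      rw [sum_congr rfl fun n1 m1 => sum_congr rfl fun n2 m2 => by rw [ki hB h M X n1 n2 hM m1 m2],
        h2] at h1
      unfold Fm
      rw [h1]
      refine sum_congr rfl fun f _ => ?_
      rw [mul_sum]
      refine sum_congr rfl fun k1 _ => ?_
      rw [mul_sum]
      refine sum_congr rfl fun k2 _ => ?_
      rw [map_mul]; ring
    rw [← key, ofReal_sum]
    refine sum_congr rfl fun f hf => ?_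
    rw [ofReal_mul, ofReal_tsum, (hasSum_g hB hM X a (hB.b2.ne _ ((msq hB).1 hf).1.1)).tsum_eq]

end Vale.Agent.P006.D
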