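import Vale.Agent.P006.D
import Vale.Agent.P006.L.L1

/-! P006 row DKQ: both kernels in terms of the coprime kernel. -/

noncomputable section
open Complex
open scoped Classical ComplexConjugate

namespace Vale.Agent.P006.D
open Vale.Agent.P026

namespace KQM

lemma prim_add (a m : O) : Prim (a + 3 * m) ↔ Prim a := by
  unfold Prim
  rw [show a + 3 * m - 1 = (a - 1) + 3 * m by ring]
  exact dvd_add_left (dvd_mul_right _ _)

lemma prim_mul {e : O} (he : Prim e) (m : O) : Prim (e * m) ↔ Prim m :=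
  ⟨W1.bas.b2.cancel _ _ he, W1.bas.b2.mul _ _ he⟩

lemma eQ3 {e : O} (he : Prim e) (m : O) : eQ (e * m) 3 = eQ m 3 := by
  obtain ⟨c, hc⟩ := he
  rw [show e * m = m + 3 * (c * m) by linear_combination m * hc, W1.bas.b1.eQ_add,
    W1.bas.b1.eQ_dvd _ _ (dvd_mul_right _ _), mul_one]

lemma three_ne : (3 : O) ≠ 0 := by
  intro h
  have := W1.bas.b2.cop 1 W1.bas.b2.one
  have h2 := W1.bas.b1.lam_sq
  rw [h, neg_zero] at h2
  exact W1.bas.b1.prime_lam.ne_zero (pow_eq_zero_iff two_ne_zero |>.1 h2)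

lemma s3 (h : O) : ∑ r ∈ Rs 3, (if Prim r then (1 : ℂ) else 0) * eQ (r * h) 3 = eQ h 3 := by
  obtain ⟨r, hr, hd⟩ := W1.bas.b4.ex 3 1 three_ne
  have pr : Prim r := by unfold Prim; simpa using (dvd_neg.2 hd)
  rw [Finset.sum_eq_single_of_mem r hr, if_pos pr, one_mul, eQ3 pr]
  intro z hz hne
  rw [if_neg, zero_mul]
  intro pz
  refine hne (W1.bas.b4.uniq 3 z r three_ne hz hr ?_)
  have := dvd_sub pz pr
  rwa [show z - 1 - (r - 1) = z - r by ring] at this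

lemma cub3 {k : O} (hk : Prim k) : cub 3 k = conj (cub lam k) := by
  have c := W1.bas.b2.cop _ hk
  rw [show (3 : O) = -lam ^ 2 by rw [W1.bas.b1.lam_sq]; ring, W1.bas.b6.neg_l _ _ c,
    W1.bas.b6.pow_l _ _ _ c, W1.bas.b6.conj_eq]

lemma pe3 (k1 k2 : O) : Pe (3 * (k1 * k2))
    fun m => if Prim m then cub m k1 * conj (cub m k2) else 0 := by
  intro a m
  have h1 := Poi3.pe_pair W1.bas k1 k2 a (3 * m)
  simp only at h1 ⊢
  rw [show 3 * (k1 * k2) * m = k1 * k2 * (3 * m) by ring, h1,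
    show k1 * k2 * (3 * m) = 3 * (k1 * k2 * m) by ring]
  simp only [prim_add]

lemma ft3 {k1 k2 : O} (p1 : Prim k1) (p2 : Prim k2) (s1 : Squarefree k1) (s2 : Squarefree k2)
    (hc : IsCoprime k1 k2) (h : O) :
    ∑ r ∈ Rs (3 * (k1 * k2)), (if Prim r then cub r k1 * conj (cub r k2) else 0) *
      eQ (r * h) (3 * (k1 * k2)) =
      eQ h 3 * (conj (cub lam k1) * cub lam k2) * (conj (cub h k1 * gs k1) * (cub h k2 * gs k2)) := by
  have hB := W1.bas
  have pq := hB.b2.mul _ _ p1 p2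
  have q0 := hB.b2.ne _ pq
  rw [hB.b4.crt 3 (k1 * k2) (fun r => (if Prim r then cub r k1 * conj (cub r k2) else 0) *
      eQ (r * h) (3 * (k1 * k2))) three_ne q0 (hB.b2.cop _ pq).symm]
  swap
  · intro a m
    have := pe3 k1 k2 a m
    simp only at this ⊢
    rw [this, add_mul, hB.b1.eQ_add, hB.b1.eQ_dvd (3 * (k1 * k2) * m * h) _ ⟨m * h, by ring⟩, mul_one]
  have e : ∀ r1 r2, (if Prim (r1 * (k1 * k2) + r2 * 3) then cub (r1 * (k1 * k2) + r2 * 3) k1 *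
      conj (cub (r1 * (k1 * k2) + r2 * 3) k2) else 0) *
      eQ ((r1 * (k1 * k2) + r2 * 3) * h) (3 * (k1 * k2)) =
      (conj (cub lam k1) * cub lam k2) * (((if Prim r1 then (1 : ℂ) else 0) * eQ (r1 * h) 3) *
        (cub r2 k1 * conj (cub r2 k2) * eQ (r2 * h) (k1 * k2))) := by
    intro r1 r2
    have a1 := Poi3.pe_pair hB k1 k2 (3 * r2) r1
    simp only at a1
    have b1 : eQ (r1 * (k1 * k2) * h) (3 * (k1 * k2)) = eQ (r1 * h) 3 := by
      rw [← hB.b1.eQ_mul (k1 * k2) (r1 * h) 3 q0]; congr 1 <;> ring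
    have b2 : eQ (r2 * 3 * h) (3 * (k1 * k2)) = eQ (r2 * h) (k1 * k2) := by
      rw [← hB.b1.eQ_mul 3 (r2 * h) (k1 * k2) three_ne]; congr 1; ring
    have b3 : Prim (r1 * (k1 * k2) + r2 * 3) ↔ Prim r1 := by
      rw [mul_comm r2, prim_add, mul_comm r1, prim_mul pq]
    rw [add_mul, hB.b1.eQ_add, b1, b2]
    simp only [b3]
    rw [show r1 * (k1 * k2) + r2 * 3 = 3 * r2 + k1 * k2 * r1 by ring, a1,
      hB.b6.mul_l _ _ _ (hB.b2.cop _ p1), hB.b6.mul_l _ _ _ (hB.b2.cop _ p2), cub3 p1, cub3 p2]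
    simp only [map_mul, Complex.conj_conj]
    split_ifs <;> ring
  simp only [e, ← Finset.mul_sum]
  rw [← Finset.sum_mul, s3, Poi3.ft hB W1.cr W1.hd p1 p2 s1 s2 hc]
  ring

lemma poi {k1 k2 : O} (p1 : Prim k1) (p2 : Prim k2) (s1 : Squarefree k1) (s2 : Squarefree k2)
    (hc : IsCoprime k1 k2) {M : ℝ} (hM : 0 < M) : Tq M k1 k2 = Pq M k1 k2 := by
  have hB := W1.bas
  have pq := hB.b2.mul _ _ p1 p2
  have n1 := L1M.Npos hB p1
  have n2 := L1M.Npos hB p2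
  have G := gpoS hB (po1S hB) (gfS hB) _ (3 * (k1 * k2)) M
    (mul_ne_zero three_ne (hB.b2.ne _ pq)) (pe3 k1 k2) hM
  simp only [ft3 p1 p2 s1 s2 hc] at G
  simp only [ite_mul, zero_mul] at G
  have n3 : N (3 * (k1 * k2)) = 9 * (N k1 * N k2) := by
    have := hB.b1.N_int 3
    rw [hB.b1.N_mul, hB.b1.N_mul, show (3 : O) = ((3 : ℤ) : O) by norm_num, this]; norm_num
  unfold Tq Pq
  rw [G, n3, ← tsum_mul_left, ← tsum_mul_left]
  refine tsum_congr fun h => ?_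
  unfold ew gt
  have k0 := Poi3.kap_ne
  obtain ⟨a, ha, ea⟩ : ∃ a : ℝ, 0 < a ∧ N k1 = a ^ 2 :=
    ⟨_, Real.sqrt_pos.2 n1, (Real.sq_sqrt n1.le).symm⟩
  obtain ⟨b, hb, eb⟩ : ∃ a : ℝ, 0 < a ∧ N k2 = a ^ 2 :=
    ⟨_, Real.sqrt_pos.2 n2, (Real.sq_sqrt n2.le).symm⟩
  generalize cexp (-(sg * M * N h / (9 * (N k1 * N k2)) : ℝ)) = E
  rw [ea, eb, ← mul_pow, Real.sqrt_sq ha.le, Real.sqrt_sq hb.le, Real.sqrt_sq (mul_pos ha hb).le]
  simp only [map_mul, map_div₀, conj_ofReal]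
  have z1 : (a : ℂ) ≠ 0 := by exact_mod_cast ha.ne'
  have z2 : (b : ℂ) ≠ 0 := by exact_mod_cast hb.ne'
  push_cast
  field_simp

theorem kt (M : ℝ) (g k1 k2 : O) (hM : 0 < M) (hg : Prim g) (h1 : Prim k1) (h2 : Prim k2) :
    Tq M (g * k1) (g * k2) = ∑ e ∈ dv g, mu e * (cub e k1 * conj (cub e k2)) * Tq (M / N e) k1 k2 := by
  have hB := W1.bas
  have g0 := hB.b2.ne _ hg
  have hF : Summable fun m : O =>
      if Prim m then cub m k1 * conj (cub m k2) * cexp (-(N m / M : ℝ)) else 0 := by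
    refine Summable.of_norm_bounded (GPOM.gsum hB hM) fun m => ?_
    split_ifs
    · rw [norm_mul, norm_mul, RCLike.norm_conj]
      exact mul_le_of_le_one_left (norm_nonneg _)
        (mul_le_one₀ (hB.b6.norm_le _ _) (norm_nonneg _) (hB.b6.norm_le _ _))
    · rw [norm_zero]; exact norm_nonneg _
  have e1 : ∀ m, (if Prim m then cub m (g * k1) * conj (cub m (g * k2)) * cexp (-(N m / M : ℝ)) else 0) =
      (if IsCoprime g m then 1 else 0) *
        (if Prim m then cub m k1 * conj (cub m k2) * cexp (-(N m / M : ℝ)) else 0) := by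
    intro m
    rw [hB.b6.mul_r _ _ _ g0 (hB.b2.ne _ h1), hB.b6.mul_r _ _ _ g0 (hB.b2.ne _ h2),
      ← L1M.cub_ind hB hg, map_mul]
    split_ifs <;> ring
  unfold Tq
  simp only [e1]
  rw [L1M.sieve hB hg _ hF]
  refine Finset.sum_congr rfl fun e he => ?_
  have pe := (((memS hB).2 g e g0).1 he).1
  have ne := (L1M.Npos hB pe).ne'
  rw [mul_assoc]
  congr 1
  rw [← tsum_mul_left]
  refine tsum_congr fun m => ?_
  have : N (e * m) / M = N m / (M / N e) := by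
    rw [hB.b1.N_mul]; field_simp
  rw [this, hB.b6.mul_l _ _ _ (hB.b2.cop _ h1), hB.b6.mul_l _ _ _ (hB.b2.cop _ h2), map_mul]
  simp only [prim_mul pe]
  split_ifs <;> ring

theorem kp (M : ℝ) (g k1 k2 : O) (hM : 0 < M) (hg : Prim g) (h1 : Prim k1) (h2 : Prim k2)
    (hs : Squarefree (g * k1 * k2)) :
    Pq M (g * k1) (g * k2) = ∑ e ∈ dv g, ∑ f ∈ dv g, if e * f = g then
      mu e * (N f : ℂ) * (cub (e * f ^ 2) k1 * conj (cub (e * f ^ 2) k2)) *
        Tq (M / (N e * N f ^ 2)) k1 k2 else 0 := by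
  have hB := W1.bas
  obtain ⟨sg0, s1, s2, c1, c2, c12⟩ := L1M.cops hs
  have g0 := hB.b2.ne _ hg
  have n1 := L1M.Npos hB h1
  have n2 := L1M.Npos hB h2
  have ng := L1M.Npos hB hg
  have sgp : 0 < sg := by unfold sg; have := Real.pi_pos; positivity
  have hgs : gt g * conj (gt g) = 1 := by
    rw [mul_conj, normSq_eq_norm_sq, Z0.norm_gt hg sg0]; simp
  set M0 : ℝ := 9 * (N (g * k1) * N (g * k2)) / (sg * M) with hM0
  have nn1 : N (g * k1) = N g * N k1 := hB.b1.N_mul _ _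
  have nn2 : N (g * k2) = N g * N k2 := hB.b1.N_mul _ _
  have hM0p : 0 < M0 := by rw [hM0, nn1, nn2]; positivity
  have ex : ∀ h : O, sg * M * N h / (9 * (N (g * k1) * N (g * k2))) = N h / M0 := fun h => by
    rw [hM0, nn1, nn2]; field_simp
  have hF : Summable fun h : O =>
      eQ h 3 * (conj (cub h k1 * gt k1) * (cub h k2 * gt k2)) * cexp (-(N h / M0 : ℝ)) := by
    refine Summable.of_norm_bounded (GPOM.gsum hB hM0p) fun m => ?_
    rw [norm_mul, norm_mul, norm_mul, RCLike.norm_conj, norm_mul, norm_mul, Z0.norm_gt h1 s1,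
      Z0.norm_gt h2 s2, eQ, hB.b1.norm_psi, one_mul, mul_one, mul_one]
    exact mul_le_of_le_one_left (norm_nonneg _)
      (mul_le_one₀ (hB.b6.norm_le _ _) (norm_nonneg _) (hB.b6.norm_le _ _))
  have e1 : ∀ h, eQ h 3 * (conj (cub h (g * k1) * gt (g * k1)) * (cub h (g * k2) * gt (g * k2))) *
      ew M (g * k1) (g * k2) h =
      (conj (cub g k1) * cub g k2) * ((if IsCoprime g h then 1 else 0) *
        (eQ h 3 * (conj (cub h k1 * gt k1) * (cub h k2 * gt k2)) * cexp (-(N h / M0 : ℝ)))) := by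
    intro h
    rw [ew, ex, hB.b6.mul_r _ _ _ g0 (hB.b2.ne _ h1), hB.b6.mul_r _ _ _ g0 (hB.b2.ne _ h2),
      ← L1M.cub_ind hB hg, Z0.gt_mul hg h1 c1, Z0.gt_mul hg h2 c2]
    simp only [map_mul]
    linear_combination (eQ h 3 * conj (cub h g) * conj (cub h k1) * conj (gt k1) * conj (cub g k1) *
      cub h g * cub h k2 * gt k2 * cub g k2 * cexp (-(N h / M0 : ℝ))) * hgs
  rw [Pq]
  simp only [e1]
  rw [tsum_mul_left, L1M.sieve hB hg _ hF, ← mul_assoc, Finset.mul_sum]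
  refine Finset.sum_congr rfl fun e he => ?_
  obtain ⟨pe, f, rfl⟩ := ((memS hB).2 g e g0).1 he
  have pf := hB.b2.cancel _ _ pe hg
  have e0 := hB.b2.ne _ pe
  have ne := L1M.Npos hB pe
  have nf := L1M.Npos hB pf
  have hf : f ∈ dv (e * f) := ((memS hB).2 _ f g0).2 ⟨pf, dvd_mul_left _ _⟩
  rw [Finset.sum_eq_single_of_mem f hf fun f' _ hne => if_neg fun h =>
    hne (mul_left_cancel₀ e0 h), if_pos rfl]
  have hM' : 0 < M / (N e * N f ^ 2) := by positivity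
  have nef : N (e * f) = N e * N f := hB.b1.N_mul _ _
  have e2 : ∀ m, eQ (e * m) 3 * (conj (cub (e * m) k1 * gt k1) * (cub (e * m) k2 * gt k2)) *
      cexp (-(N (e * m) / M0 : ℝ)) = (conj (cub e k1) * cub e k2) *
      (eQ m 3 * (conj (cub m k1 * gt k1) * (cub m k2 * gt k2)) *
        ew (M / (N e * N f ^ 2)) k1 k2 m) := fun m => by
    have : N (e * m) / M0 = sg * (M / (N e * N f ^ 2)) * N m / (9 * (N k1 * N k2)) := by
      rw [hM0, nn1, nn2, nef, hB.b1.N_mul]; field_simp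
    rw [this, hB.b6.mul_l _ _ _ (hB.b2.cop _ h1), hB.b6.mul_l _ _ _ (hB.b2.cop _ h2), eQ3 pe, ew]
    simp only [map_mul]
    ring
  simp only [e2]
  rw [tsum_mul_left, poi h1 h2 s1 s2 c12 hM', Pq]
  generalize (∑' h : O, eQ h 3 * (conj (cub h k1 * gt k1) * (cub h k2 * gt k2)) *
    ew (M / (N e * N f ^ 2)) k1 k2 h) = S
  have a1 := hB.b6.cube _ _ c1.of_mul_left_left
  have b2 := hB.b6.cube _ _ c2.of_mul_left_right
  have key : conj (cub (e * f) k1) * cub (e * f) k2 * (conj (cub e k1) * cub e k2) =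
      cub (e * f ^ 2) k1 * conj (cub (e * f ^ 2) k2) := by
    simp only [hB.b6.conj_eq]
    simp only [hB.b6.mul_l _ _ _ (hB.b2.cop _ h1),
      hB.b6.mul_l _ _ _ (hB.b2.cop _ h2), hB.b6.pow_l _ _ _ (hB.b2.cop _ h1),
      hB.b6.pow_l _ _ _ (hB.b2.cop _ h2)]
    linear_combination (cub e k1 * cub f k1 ^ 2 * cub e k2 ^ 2 * cub f k2) * a1 -
      (cub e k1 * cub f k1 ^ 2 * cub e k2 ^ 2 * cub f k2) * b2
  have sq : Real.sqrt (N (e * f * k1) * N (e * f * k2)) = N e * N f * Real.sqrt (N k1 * N k2) := by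
    rw [nn1, nn2, nef, show N e * N f * N k1 * (N e * N f * N k2) = (N e * N f) ^ 2 * (N k1 * N k2) by
      ring, Real.sqrt_mul (sq_nonneg _), Real.sqrt_sq (by positivity)]
  rw [← key, sq]
  have k0 := Poi3.kap_ne
  have z1 : ((Real.sqrt (N k1 * N k2) : ℝ) : ℂ) ≠ 0 := by
    exact_mod_cast (Real.sqrt_pos.2 (mul_pos n1 n2)).ne'
  have z3 : (N e : ℂ) ≠ 0 := by exact_mod_cast ne.ne'
  have z4 : (N f : ℂ) ≠ 0 := by exact_mod_cast nf.ne'
  generalize Real.sqrt (N k1 * N k2) = q at z1 ⊢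
  push_cast
  field_simp

end KQM

theorem kqS : KQStmt := fun M g k1 k2 hM hg h1 h2 hs =>
  ⟨KQM.kt M g k1 k2 hM hg h1 h2, KQM.kp M g k1 k2 hM hg h1 h2 hs⟩

end Vale.Agent.P006.D
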