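import Vale.Agent.P006.D
import Vale.Agent.P006.L.L4b

/-! P006 branch D, row LQ. -/

noncomputable section
open Complex
open scoped Classical ComplexConjugate

namespace Vale.Agent.P006.D
open Vale.Agent.P026

namespace LQM
open L4M

theorem main (hB : Bas) {C l c t s r : ℝ} (hC0 : 0 ≤ C) (hC : CLb C) (hl : 1 ≤ l) (hc : 1 ≤ c)
    (ht : 1 ≤ t) (hs : 1 ≤ s) (hr : 1 ≤ r)
    (hL : ∀ M : ℝ, 0 < M → LB M (s ^ 3) (c * Ps l M (s ^ 3))) :
    LP (Big (r ^ 3)) (t ^ 3) (s ^ 3) (18 * (16 * (t / r) * (2 * C * s ^ 3) + c * ((16 + Zt + C) * (t ^ 2 * s ^ 2) +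
        2 * Zt * (l ^ (2 / 3 : ℝ) * t ^ 4)) * Zt)) := by
  intro S T a hS' hT
  have hS : ∀ k ∈ S, k ≠ 0 ∧ N k ≤ t ^ 3 := fun k hk => ⟨(hS' k hk).1.1, (hS' k hk).2⟩
  have r0 : 0 < r := by linarith
  have q0 : 0 ≤ ∑ n ∈ T, ‖a n‖ ^ 2 := by positivity
  have t0 : 0 < t := by linarith
  have s0 : 0 < s := by linarith
  have c0 : 0 < c := by linarith
  have l0 : 0 < l := by linarith
  have z0 := zt0
  choose! y hy using dec hB
  have key : ∀ k ∈ S, N (y k).2.1 * N (y k).2.2 ^ 2 * N (y k).1.2 ^ 3 ≤ t ^ 3 := by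
    intro k hk
    obtain ⟨-, a2, -, -, -, -, a7⟩ := hy k (hS k hk).1
    have h1 := (hS k hk).2
    rw [a7, hB.b1.N_mul, hB.b1.N_mul, hB.b1.N_mul, hB.b1.N_pow, hB.b1.N_pow] at h1
    have n1 := hB.b1.N_one_le _ a2
    have p : 0 ≤ N (y k).2.1 * N (y k).2.2 ^ 2 * N (y k).1.2 ^ 3 := by unfold N; positivity
    nlinarith
  have hH : ∀ h ∈ S.image fun k => (y k).1.2, h ≠ 0 ∧ N h ≤ t := by
    intro h hh
    obtain ⟨k, hk, rfl⟩ := Finset.mem_image.1 hh
    obtain ⟨-, -, a3, a4, a5, -, -⟩ := hy k (hS k hk).1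
    refine ⟨a3, le_of_pow_le_pow_left₀ (by norm_num : 3 ≠ 0) t0.le (le_trans ?_ (key k hk))⟩
    have n1 := hB.b1.N_one_le _ (hB.b2.ne _ a4)
    have n2 := one_le_pow₀ (n := 2) (hB.b1.N_one_le _ (hB.b2.ne _ a5))
    exact le_mul_of_one_le_left (by unfold N; positivity) (by nlinarith)
  have hH' : ∀ h ∈ S.image fun k => (y k).1.2, h ≠ 0 ∧ N h ≤ t / r := by
    intro h hh
    refine ⟨(hH h hh).1, ?_⟩
    obtain ⟨k, hk, rfl⟩ := Finset.mem_image.1 hh
    have a7 := (hy k (hS k hk).1).2.2.2.2.2.2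
    have b1 := (hS' k hk).1.2 ((y k).2.1 * (y k).2.2 ^ 2 * (y k).1.1) (y k).1.2
      (a7.trans (by ring))
    have b2 := (hS k hk).2
    rw [a7, ← mul_assoc, hB.b1.N_mul _ (_ ^ 3), hB.b1.N_pow] at b2
    have n0 : 0 ≤ N (y k).1.2 := Nat.cast_nonneg _
    refine le_of_pow_le_pow_left₀ (by norm_num : 3 ≠ 0) (by positivity) ?_
    rw [div_pow, le_div_iff₀ (by positivity)]
    nlinarith [pow_nonneg n0 3]
  rw [← Finset.sum_fiberwise_of_maps_to (g := fun k => (y k).1)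
    (t := U18 ×ˢ S.image fun k => (y k).1.2)
    fun k hk => Finset.mem_product.2 ⟨(hy k (hS k hk).1).1,
      Finset.mem_image_of_mem (fun k => (y k).1.2) hk⟩, Finset.sum_product]
  have h2 : ∀ x ∈ U18, ∀ h ∈ S.image fun k => (y k).1.2,
      ∑ k ∈ S with (y k).1 = (x, h), ‖∑ n ∈ T, a n * cub k n‖ ^ 2 ≤
      2 * C * s ^ 3 * (∑ n ∈ T, ‖a n‖ ^ 2) + c * ((16 + Zt + C) * (t ^ 2 * s ^ 2) +
        2 * Zt * (l ^ (2 / 3 : ℝ) * t ^ 4)) * (∑ n ∈ T, ‖a n‖ ^ 2) * N h ^ (-(4 / 3) : ℝ) := by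
    intro x _ h hh
    have n1 := hB.b1.N_one_le _ (hH h hh).1
    have n0 : 0 < N h := by linarith
    have h3 := pairs hB hC0 hC hl hc (t := t / N h) ((one_le_div n0).2 (hH h hh).2) hs hL
      ((S.filter fun k => (y k).1 = (x, h)).image fun k => (y k).2) T
      (fun n => a n * cub (x * h ^ 3) n) (fun p hp => ?_) hT
    · rw [Finset.sum_image fun k hk k' hk' e => ?_] at h3
      · have w2 := wt n1 2 le_rfl
        have w4 := wt n1 4 (by norm_num)
        have h4 : (16 + Zt + C) * ((t / N h) ^ 2 * s ^ 2) + 2 * Zt * (l ^ (2 / 3 : ℝ) * (t / N h) ^ 4) ≤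
            ((16 + Zt + C) * (t ^ 2 * s ^ 2) + 2 * Zt * (l ^ (2 / 3 : ℝ) * t ^ 4)) *
              N h ^ (-(4 / 3) : ℝ) := by
          have b1 := mul_le_mul_of_nonneg_left w2 (by positivity : 0 ≤ (16 + Zt + C) * (t ^ 2 * s ^ 2))
          have b2 := mul_le_mul_of_nonneg_left w4
            (by positivity : 0 ≤ 2 * Zt * (l ^ (2 / 3 : ℝ) * t ^ 4))
          rw [div_pow, div_pow, div_eq_mul_inv (t ^ 2), div_eq_mul_inv (t ^ 4)]
          linarith
        refine (le_of_eq (Finset.sum_congr rfl fun k hk => ?_)).trans (h3.trans ?_)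
        · obtain ⟨hk1, hk2⟩ := Finset.mem_filter.1 hk
          have e := (hy k (hS k hk1).1).2.2.2.2.2.2
          rw [hk2] at e
          rw [← tw hB hT, ← e]
        · refine (mul_le_mul (add_le_add le_rfl (mul_le_mul_of_nonneg_left h4 c0.le)) (tw_le hB T a _)
            (by positivity) (by positivity)).trans (le_of_eq ?_)
          ring
      · obtain ⟨hk1, hk2⟩ := Finset.mem_filter.1 hk
        obtain ⟨hk1', hk2'⟩ := Finset.mem_filter.1 hk'
        have e1 := (hy k (hS k hk1).1).2.2.2.2.2.2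
        have e2 := (hy k' (hS k' hk1').1).2.2.2.2.2.2
        rw [hk2, show (y k).2 = (y k').2 from e] at e1
        rw [hk2'] at e2
        exact e1.trans e2.symm
    · obtain ⟨k, hk, rfl⟩ := Finset.mem_image.1 hp
      obtain ⟨hk1, hk2⟩ := Finset.mem_filter.1 hk
      obtain ⟨-, -, -, a4, a5, a6, -⟩ := hy k (hS k hk1).1
      refine ⟨a4, a5, a6, ?_⟩
      have h5 := key k hk1
      rw [hk2] at h5
      rw [div_pow, le_div_iff₀ (by positivity)]
      exact h5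
  refine (Finset.sum_le_card_nsmul _ _ _ fun x hx => (Finset.sum_le_sum (h2 x hx)).trans
    (aff hB _ (by positivity) (by positivity) (by positivity) hH')).trans ?_
  rw [nsmul_eq_mul]
  refine (mul_le_mul_of_nonneg_right card18 (by positivity)).trans (le_of_eq ?_)
  ring

end LQM

open L4M in
theorem lqS (hS : SLStmt) (hC : CLStmt) : LQStmt := by
  obtain ⟨C, hC0, hC⟩ := hC
  obtain ⟨D, D0, hD⟩ := hS
  have z0 := zt0
  obtain ⟨c, hc, hDc⟩ : ∃ c : ℝ, 1 ≤ c ∧ D ≤ c := ⟨max 1 D, le_max_left _ _, le_max_right _ _⟩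
  have c0 : 0 < c := by linarith
  refine ⟨576 * C + 18 * c * (16 + Zt + C) * Zt + 36 * c * Zt ^ 2, by positivity, ?_⟩
  intro R K X hR hK hX
  obtain ⟨t, ht, rfl⟩ := cube hK
  obtain ⟨s, hs, rfl⟩ := cube hX
  obtain ⟨r, hr, rfl⟩ := cube hR
  have t0 : 0 < t := by linarith
  have s0 : 0 < s := by linarith
  have r0 : 0 < r := by linarith
  intro S T a hS hT
  refine (LQM.main W1.bas hC0 hC le_rfl hc ht hs hr (fun M hM S T a h1 h2 =>
    (hD M (s ^ 3) hM (by positivity) S T a h1 h2).trans (mul_le_mul_of_nonneg_right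
      (mul_le_mul hDc ?_ (by positivity) c0.le) (by positivity))) S T a hS hT).trans
    (mul_le_mul_of_nonneg_right ?_ (by positivity))
  · unfold Ps
    exact le_add_of_nonneg_right (by positivity)
  · rw [c13 t0.le, c23 t0.le, c23 s0.le, c43 t0.le, Real.one_rpow, neg_div,
      Real.rpow_neg (by positivity), c13 r0.le, div_eq_mul_inv t r]
    have p1 : 0 ≤ (18 * c * (16 + Zt + C) * Zt + 36 * c * Zt ^ 2) * s ^ 3 * r⁻¹ * t := by positivity
    have p2 : 0 ≤ (576 * C + 36 * c * Zt ^ 2) * s ^ 2 * t ^ 2 := by positivity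
    have p3 : 0 ≤ (576 * C + 18 * c * (16 + Zt + C) * Zt) * t ^ 4 := by positivity
    linarith

end Vale.Agent.P006.D
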