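import Vale.Agent.P006.D
import Vale.Agent.P006.Vau

/-! P006 branch D: the cost of coprimality conditions for rough numbers. -/

noncomputable section
open Finset
open scoped Classical

namespace Vale.Agent.P006.D

open Vale.Agent.P026 W1 Vau

namespace NCM

theorem cnt {Y : ℝ} (hY : 0 ≤ Y) {T : Finset O} (hT : ∀ n ∈ T, n ≠ 0 ∧ N n ≤ Y) {p : O} (hp : p ≠ 0) :
    ((T.filter (p ∣ ·)).card : ℝ) ≤ 16 * Y * (N p)⁻¹ := by
  have p1 := bas.b1.N_one_le p hp
  have e : ∀ n ∈ T.filter (p ∣ ·), p * (n / p) = n := fun n hn =>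
    EuclideanDomain.mul_div_cancel' hp (mem_filter.1 hn).2
  rw [← card_image_of_injOn (f := (· / p)) fun x hx y hy h => by
    rw [← e x hx, ← e y hy]; exact congrArg _ h, mul_assoc]
  refine bas.b3.card_le _ _ (by positivity) fun a ha => ?_
  obtain ⟨n, hn, rfl⟩ := mem_image.1 ha
  have := hT n (mem_filter.1 hn).1
  rw [← e n hn, bas.b1.N_mul] at this
  exact ⟨right_ne_zero_of_mul this.1, by rw [le_mul_inv_iff₀ (by linarith), mul_comm]; exact this.2⟩

theorem tail : ∃ K : ℝ, 0 ≤ K ∧ ∀ (w : ℝ) (P : Finset O), 1 ≤ w → (∀ p ∈ P, w < N p) →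
    ∑ p ∈ P, (N p)⁻¹ * (N p)⁻¹ ≤ K * w ^ (-1 / 2 : ℝ) := by
  have sm := bas.b3.summ (3 / 2) (by norm_num)
  refine ⟨∑' a : O, N a ^ (-(3 / 2) : ℝ), tsum_nonneg fun a => Real.rpow_nonneg (N0 a) _,
    fun w P hw hP => ?_⟩
  refine le_trans (sum_le_sum fun p hp => ?_) ((sum_mul _ _ _).symm.trans_le
    (mul_le_mul_of_nonneg_right (sm.sum_le_tsum P fun a _ => Real.rpow_nonneg (N0 a) _)
      (by positivity)))
  have := hP p hp
  calc _ = N p ^ (-(3 / 2) : ℝ) * N p ^ (-1 / 2 : ℝ) := by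
        rw [← Real.rpow_neg_one, ← Real.rpow_add (by linarith), ← Real.rpow_add (by linarith)]
        norm_num
    _ ≤ _ := mul_le_mul_of_nonneg_left (Real.rpow_le_rpow_of_nonpos (by linarith) this.le
        (by norm_num)) (Real.rpow_nonneg (N0 p) _)

theorem ex {j n : O} (hn : Prim n) (h : ¬ IsCoprime j n) : ∃ p ∈ pf n, p ∣ j := by
  refine bas.b2.ind1 (fun n => ¬ IsCoprime j n → ∃ p ∈ pf n, p ∣ j)
    (fun h => (h isCoprime_one_right).elim) (fun p a hp h1 ha ih h => ?_) n hn h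
  have a0 := bas.b2.ne a ha
  rw [b8.pf_mul _ _ hp.ne_zero a0]
  by_cases k : p ∣ j
  · exact ⟨p, mem_union_left _ ((b8.mem p p hp.ne_zero).2 ⟨hp, h1, dvd_rfl⟩), k⟩
  · obtain ⟨q, q1, q2⟩ := ih fun c => h ((hp.irreducible.coprime_iff_not_dvd.2 k).symm.mul_right c)
    exact ⟨q, mem_union_right _ q1, q2⟩

theorem prod_le (s : Finset O) (x : O → ℝ) (h0 : ∀ i ∈ s, 0 ≤ x i) (h1 : ∀ i ∈ s, x i ≤ 1) :
    |1 - ∏ i ∈ s, (1 - x i)| ≤ ∑ i ∈ s, x i := by
  have a : ∏ i ∈ s, (1 - x i) ≤ 1 :=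
    prod_le_one (fun i hi => by linarith [h1 i hi]) fun i hi => by linarith [h0 i hi]
  rw [abs_of_nonneg (by linarith)]
  clear a
  induction s using Finset.induction_on with
  | empty => simp
  | insert i s hi ih =>
    have b := ih (fun j hj => h0 j (mem_insert_of_mem hj)) fun j hj => h1 j (mem_insert_of_mem hj)
    have c : ∏ i ∈ s, (1 - x i) ≤ 1 :=
      prod_le_one (fun i hi => by linarith [h1 i (mem_insert_of_mem hi)]) fun i hi => by
        linarith [h0 i (mem_insert_of_mem hi)]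
    rw [prod_insert hi, sum_insert hi]
    nlinarith [h0 i (mem_insert_self _ _)]

end NCM

open NCM in
theorem ncS (h : C1Stmt) : NCStmt := by
  obtain ⟨C, C0, hC⟩ := h
  obtain ⟨K, K0, hK⟩ := tail
  refine ⟨16 * (C + 1) * K, by positivity, fun Y w T hY hw hT => ?_⟩
  set P := T.biUnion pf with hP
  have mP : ∀ p ∈ P, Prime p ∧ w < N p := fun p hp => by
    obtain ⟨n, hn, h1⟩ := mem_biUnion.1 hp
    have := (b8.mem n p (bas.b2.ne n (hT n hn).1)).1 h1
    exact ⟨this.1, (hT n hn).2.2 p this.1 this.2.2⟩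
  have c1 : ∀ p ∈ P, ((T.filter (p ∣ ·)).card : ℝ) ≤ 16 * Y * (N p)⁻¹ := fun p hp =>
    cnt hY (fun n hn => ⟨bas.b2.ne n (hT n hn).1, (hT n hn).2.1⟩) (mP p hp).1.ne_zero
  have t := hK w P hw fun p hp => (mP p hp).2
  have w0 : 0 ≤ w ^ (-1 / 2 : ℝ) := by positivity
  refine ⟨fun c hc => ?_, ?_⟩
  · set e : O → ℝ := fun j => if j = 0 then 0 else Real.exp (-(c * N j ^ 3)) with he
    have e0 : ∀ j, 0 ≤ e j := fun j => by simp only [he]; split_ifs <;> positivity
    have se : Summable e := (hC c hc).1.of_nonneg_of_le e0 fun j => by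
      simp only [he]; split_ifs; exacts [(Real.exp_pos _).le, le_rfl]
    have sp : ∀ p, Summable fun j => if p ∣ j then e j else 0 := fun p =>
      se.of_nonneg_of_le (fun j => by split_ifs; exacts [e0 j, le_rfl]) fun j => by
        split_ifs; exacts [le_rfl, e0 j]
    have b1 : ∀ p ∈ P, ∑' j, (if p ∣ j then e j else 0) ≤ C * c ^ (-1 / 3 : ℝ) * (N p)⁻¹ :=
      fun p hp => by
        have p0 := (mP p hp).1.ne_zero
        have p1 := bas.b1.N_one_le p p0
        rw [← (mul_right_injective₀ p0).tsum_eq (f := fun j => if p ∣ j then e j else 0) fun j hj => by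
          obtain ⟨m, hm⟩ : p ∣ j := by_contra fun k => hj (if_neg k)
          exact ⟨m, hm.symm⟩]
        refine le_of_eq_of_le (tsum_congr fun m => ?_) ((hC (c * N p ^ 3) (by positivity)).2.2.trans
          (le_of_eq ?_))
        · simp only [he, dvd_mul_right, if_true, mul_eq_zero, p0, false_or, bas.b1.N_mul, mul_pow,
            mul_assoc]
        · rw [Real.mul_rpow hc.le (by positivity), ← Real.rpow_natCast, ← Real.rpow_mul (N0 p),
            ← Real.rpow_neg_one, mul_assoc]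
          norm_num
    have b2 : ∀ j, (if j = 0 then 0 else Real.exp (-(c * N j ^ 3)) *
        ((T.filter fun n => ¬ IsCoprime j n).card : ℝ)) ≤
        ∑ p ∈ P, 16 * Y * (N p)⁻¹ * if p ∣ j then e j else 0 := fun j => by
      have : ((T.filter fun n => ¬ IsCoprime j n).card : ℝ) ≤
          ∑ p ∈ P, if p ∣ j then 16 * Y * (N p)⁻¹ else 0 := by
        rw [← sum_filter]
        refine le_trans ?_ (sum_le_sum fun p hp => c1 p (mem_filter.1 hp).1)
        rw [← Nat.cast_sum, Nat.cast_le]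
        refine (card_le_card fun n hn => ?_).trans card_biUnion_le
        obtain ⟨h1, h2⟩ := mem_filter.1 hn
        obtain ⟨p, p1, p2⟩ := ex (hT n h1).1 h2
        exact mem_biUnion.2 ⟨p, mem_filter.2 ⟨mem_biUnion.2 ⟨n, h1, p1⟩, p2⟩,
          mem_filter.2 ⟨h1, ((b8.mem n p (bas.b2.ne n (hT n h1).1)).1 p1).2.2⟩⟩
      refine le_trans (le_of_eq ?_) ((mul_le_mul_of_nonneg_left this (e0 j)).trans (le_of_eq ?_))
      · simp only [he]; split_ifs <;> simp
      · rw [mul_sum]
        exact sum_congr rfl fun p _ => by split_ifs <;> ring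
    have s2 := summable_sum (s := P) fun p _ => (sp p).mul_left (16 * Y * (N p)⁻¹)
    refine (Summable.tsum_le_tsum b2 (s2.of_nonneg_of_le (fun j => by
      split_ifs <;> positivity) b2) s2).trans ?_
    rw [Summable.tsum_finsetSum fun p _ => (sp p).mul_left _]
    simp only [tsum_mul_left]
    calc _ ≤ ∑ p ∈ P, 16 * Y * C * c ^ (-1 / 3 : ℝ) * ((N p)⁻¹ * (N p)⁻¹) := sum_le_sum fun p hp =>
          (mul_le_mul_of_nonneg_left (b1 p hp) (by have := N0 p; positivity)).trans (le_of_eq (by ring))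
      _ ≤ 16 * Y * (C + 1) * c ^ (-1 / 3 : ℝ) * (K * w ^ (-1 / 2 : ℝ)) := by
          rw [← mul_sum]
          gcongr
          · exact sum_nonneg fun p _ => mul_self_nonneg _
          · linarith
      _ = _ := by ring
  · calc _ ≤ ∑ n ∈ T, ∑ p ∈ P, if p ∣ n then (N p)⁻¹ else 0 := sum_le_sum fun n hn => by
          have n0 := bas.b2.ne n (hT n hn).1
          refine (prod_le _ _ (fun p _ => inv_nonneg.2 (N0 p)) fun p hp => inv_le_one_of_one_le₀
            (N1 ((b8.mem n p n0).1 hp).2.1)).trans ?_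
          rw [← sum_filter]
          exact sum_le_sum_of_subset_of_nonneg (fun p hp => mem_filter.2 ⟨mem_biUnion.2 ⟨n, hn, hp⟩,
            ((b8.mem n p n0).1 hp).2.2⟩) fun p _ _ => inv_nonneg.2 (N0 p)
      _ ≤ ∑ p ∈ P, 16 * Y * ((N p)⁻¹ * (N p)⁻¹) := by
          rw [sum_comm]
          refine sum_le_sum fun p hp => ?_
          rw [← sum_filter, sum_const, nsmul_eq_mul, ← mul_assoc]
          exact mul_le_mul_of_nonneg_right (c1 p hp) (inv_nonneg.2 (N0 p))
      _ ≤ 16 * Y * ((C + 1) * (K * w ^ (-1 / 2 : ℝ))) := by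
          rw [← mul_sum]
          exact mul_le_mul_of_nonneg_left (t.trans (le_mul_of_one_le_left (by positivity)
            (by linarith))) (by positivity)
      _ = _ := by ring

end Vale.Agent.P006.D
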