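import Vale.Agent.P006.D.EE

/-! P006 branch D: the dual side. -/

noncomputable section
open Complex
open scoped Classical ComplexConjugate

namespace Vale.Agent.P006.D
open Vale.Agent.P026

open EEM in
theorem p1S (hF : FQStmt) (hS : STStmt) (hQ : LQStmt) (hU : CUStmt) (hW : SWStmt) (hE : EEStmt)
    (hK : CSStmt) : P1Stmt := by
  have hB := W1.bas
  obtain ⟨C, hC, hS⟩ := hS
  obtain ⟨D, hD, hQ⟩ := hQ
  obtain ⟨CU, hCU, hU⟩ := hU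
  obtain ⟨CW, hCW, hW⟩ := hW
  obtain ⟨CE, hCE, hE⟩ := hE
  have hK1 := hK.1
  set κ : ℝ := 2 * Real.pi / (9 * Real.sqrt 3) with hκ
  have κ0 : 0 < κ := by positivity
  refine ⟨κ * (CU + CW + 16 * C * D) + CE, by positivity,
    fun M Y w R δ b hM hY hw hR hδ hb hsw => ?_⟩
  have Y0 : 0 < Y := by linarith
  have N1 : N 1 = 1 := by simp [N, Nn, nz, QuadraticAlgebra.re_one, QuadraticAlgebra.im_one]
  have h1 : (1 : O) ∈ SQ Y := ((memS hB).1 Y 1).2 ⟨⟨hB.b2.one, squarefree_one⟩, by rw [N1]; linarith⟩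
  have b1 : b 1 = 0 := by
    by_contra h
    have := (hb.supp 1 h).2.1
    rw [N1] at this
    linarith
  have e1 : (fun n => sh Y (bg b) 1 n * conj (gt n)) = b := by
    funext n
    unfold sh bg
    rw [one_mul]
    split_ifs with h
    · obtain ⟨⟨h1, h2⟩, -⟩ := ((memS hB).1 Y _).1 h
      rw [mul_assoc, mul_conj, Complex.normSq_eq_norm_sq, Z0.norm_gt h1 h2]
      simp
    · by_contra h0
      have h0' : b n ≠ 0 := fun g => h0 (by rw [g, zero_mul])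
      obtain ⟨a, -, c, -⟩ := hb.supp n h0'
      exact h (((memS hB).1 Y n).2 ⟨a, c⟩)
  have e2 : sh Y (bg b) 1 1 = 0 := by
    unfold sh bg
    simp [b1]
  have shl : Shell Y b := fun n hn => ⟨(hb.supp n hn).2.1, (hb.supp n hn).2.2.1⟩
  have q := hS (Big R) M Y Y (D * Y * R ^ (-1 / 3 : ℝ)) (D * Y ^ (2 / 3 : ℝ)) D b hM Y0
    (by positivity) (by positivity) hD (fun _ h => h.1) shl (fun K hK => hQ R K Y hR hK (by linarith))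
  have nbl := nbd Y Y b (fun n _ => hb.le n) shl Y0.le
  have q2 := q.trans (mul_le_mul_of_nonneg_left nbl (by positivity))
  have q3 := (mul_le_mul_of_nonneg_left q2 hM.le).trans_eq (alg M _ _ C D hM Y0)
  have u := hU M Y w b hM hY hw hb
  have v := hW M Y w R δ b hM hY hw hR hδ hb hsw
  have x := hE M Y w b hM hY hw hb
  have m1 : M * M ^ (-1 / 3 : ℝ) = M ^ (2 / 3 : ℝ) := by
    rw [← Real.rpow_one_add' hM.le (by norm_num)]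
    norm_num
  have w1 : w ^ (-1 / 2 : ℝ) ≤ w ^ (-1 / 3 : ℝ) := Real.rpow_le_rpow_of_exponent_le hw (by norm_num)
  rw [← Finset.add_sum_erase _ _ h1, (hF M Y _ hM).1, e1, e2, (hF M Y b hM).2 R b hR, ← hK1, ← m1]
  set Q1 := QP (fun h => h ≠ 0 ∧ IsCu h) M Y b
  set Q2 := QP (fun h => h ≠ 0 ∧ ¬ IsCu h ∧ ¬ Big R h) M Y b
  set Q3 := QP (Big R) M Y b
  set E := ∑ e ∈ (SQ Y).erase 1, Fm (Pq M) Y (sh Y (bg b) e) with hEd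
  have x' : ‖E‖ ≤ _ := (norm_sum_le _ _).trans x
  have e3 : ((κ * M : ℝ) : ℂ) * ((if (1 : O) ∈ SQ Y then ((‖(0 : ℂ)‖ ^ 2 : ℝ) : ℂ) else 0) + (Q1 + Q2 + Q3)) + E -
      ((κ * c3 * ‖Sb Y b‖ ^ 2 * (M * M ^ (-1 / 3 : ℝ)) : ℝ) : ℂ) =
      ((κ * M : ℝ) : ℂ) * ((Q1 - ((c3 * M ^ (-1 / 3 : ℝ) * ‖Sb Y b‖ ^ 2 : ℝ) : ℂ)) + Q2 + Q3) + E := by
    rw [if_pos h1, norm_zero]
    push_cast
    ring
  rw [e3]
  refine (norm_add_le _ _).trans ?_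
  rw [norm_mul, norm_real, Real.norm_of_nonneg (by positivity)]
  have t1 : M * ‖Q1 - ((c3 * M ^ (-1 / 3 : ℝ) * ‖Sb Y b‖ ^ 2 : ℝ) : ℂ)‖ ≤
      CU * (M * nb Y b + M ^ (2 / 3 : ℝ) * Y ^ (5 / 3 : ℝ) * w ^ (-1 / 3 : ℝ)) := by
    calc _ ≤ M * (CU * (nb Y b + M ^ (-1 / 3 : ℝ) * Y ^ (5 / 3 : ℝ) * w ^ (-1 / 3 : ℝ))) := by
          refine mul_le_mul_of_nonneg_left (u.trans ?_) hM.le
          gcongr
      _ = _ := by rw [← m1]; ring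
  have t2 : M * ‖Q2‖ ≤ CW * (M ^ (2 / 3 : ℝ) * Y ^ (5 / 3 : ℝ) * (R * (δ + w ^ (-1 / 2 : ℝ)))) := by
    refine (mul_le_mul_of_nonneg_left v hM.le).trans_eq ?_
    rw [← m1]; ring
  have n0 : 0 ≤ M * nb Y b := mul_nonneg hM.le (Finset.sum_nonneg fun _ _ => sq_nonneg _)
  have t3 := norm_add₃_le (a := Q1 - ((c3 * M ^ (-1 / 3 : ℝ) * ‖Sb Y b‖ ^ 2 : ℝ) : ℂ)) (b := Q2) (c := Q3)
  unfold Er eta
  have a1 : 0 ≤ M ^ (2 / 3 : ℝ) * Y ^ (5 / 3 : ℝ) * w ^ (-1 / 3 : ℝ) := by positivity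
  have a2 : 0 ≤ M ^ (2 / 3 : ℝ) * Y ^ (5 / 3 : ℝ) * R ^ (-1 / 3 : ℝ) := by positivity
  have a3 : 0 ≤ M ^ (2 / 3 : ℝ) * Y ^ (5 / 3 : ℝ) * (R * (δ + w ^ (-1 / 2 : ℝ))) := by positivity
  have a4 : 0 ≤ M ^ (1 / 3 : ℝ) * Y ^ 2 := by positivity
  have a5 : 0 ≤ M ^ (-1 / 3 : ℝ) * Y ^ (8 / 3 : ℝ) := by positivity
  have e4 : M ^ (2 / 3 : ℝ) * Y ^ (5 / 3 : ℝ) *
      (w ^ (-1 / 3 : ℝ) + R ^ (-1 / 3 : ℝ) + R * (δ + w ^ (-1 / 2 : ℝ))) =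
      M ^ (2 / 3 : ℝ) * Y ^ (5 / 3 : ℝ) * w ^ (-1 / 3 : ℝ) +
        M ^ (2 / 3 : ℝ) * Y ^ (5 / 3 : ℝ) * R ^ (-1 / 3 : ℝ) +
        M ^ (2 / 3 : ℝ) * Y ^ (5 / 3 : ℝ) * (R * (δ + w ^ (-1 / 2 : ℝ))) := by ring
  rw [e4]
  generalize M ^ (2 / 3 : ℝ) * Y ^ (5 / 3 : ℝ) * w ^ (-1 / 3 : ℝ) = A1 at *
  generalize M ^ (2 / 3 : ℝ) * Y ^ (5 / 3 : ℝ) * R ^ (-1 / 3 : ℝ) = A2 at *
  generalize M ^ (2 / 3 : ℝ) * Y ^ (5 / 3 : ℝ) * (R * (δ + w ^ (-1 / 2 : ℝ))) = A3 at *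
  generalize M ^ (1 / 3 : ℝ) * Y ^ 2 = A4 at *
  generalize M ^ (-1 / 3 : ℝ) * Y ^ (8 / 3 : ℝ) = A5 at *
  generalize M * nb Y b = A0 at *
  set S := A0 + (A1 + A2 + A3) + A4 + A5 with hSd
  have s1 : CU * (A0 + A1) ≤ CU * S := mul_le_mul_of_nonneg_left (by linarith) hCU
  have s2 : CW * A3 ≤ CW * S := mul_le_mul_of_nonneg_left (by linarith) hCW
  have s3 : 16 * C * D * (A2 + A4 + A5) ≤ 16 * C * D * S :=
    mul_le_mul_of_nonneg_left (by linarith) (by positivity)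
  have s4 : CE * (A0 + A1 + A4 + A5) ≤ CE * S := mul_le_mul_of_nonneg_left (by linarith) hCE
  have s5 := mul_le_mul_of_nonneg_left t3 hM.le
  have s6 : M * ‖Q1 - ((c3 * M ^ (-1 / 3 : ℝ) * ‖Sb Y b‖ ^ 2 : ℝ) : ℂ) + Q2 + Q3‖ ≤
      (CU + CW + 16 * C * D) * S := by linarith
  have s7 := mul_le_mul_of_nonneg_left s6 κ0.le
  linarith

end Vale.Agent.P006.D
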