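import Vale.Agent.P006.D
import Vale.Agent.P006.K.TR
import Vale.Agent.P026.M.W2

noncomputable section
open Complex MeasureTheory Filter Topology Set
open scoped Classical ComplexConjugate

namespace Vale.Agent.P006.D
open Vale.Agent.P026

namespace REPM
open K.TRM

def w6 : ℂ := ((1 / 6 : ℝ) : ℂ)

lemma HB (a b : ℝ) : ∃ C : ℝ, 0 ≤ C ∧ ∀ s : ℂ, a ≤ s.re → s.re ≤ b →
    ‖P006.K.TRM.HH 1 w6 s‖ ≤ C * Real.exp (-(1 / 2 * |s.im|)) := by
  obtain ⟨C, hC⟩ := W2.gamm.inv a b
  refine ⟨Real.sqrt Real.pi * Real.exp ((|a| + |b| + 1) ^ 2 / 4 + 16) * |C|, by positivity,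
    fun s h0 h2 => ?_⟩
  have e1 : ((s + w6) ^ 2 / 4).re = ((s.re + 1 / 6) ^ 2 - s.im ^ 2) / 4 := by
    simp [sq, w6]
  have h3 : |s.re + 1 / 6| ≤ |a| + |b| + 1 := by
    rw [abs_le]
    constructor
    · linarith [neg_abs_le a, abs_nonneg b]
    · linarith [le_abs_self b, abs_nonneg a]
  have h3' : (s.re + 1 / 6) ^ 2 ≤ (|a| + |b| + 1) ^ 2 := by
    rw [← sq_abs (s.re + 1 / 6)]
    exact pow_le_pow_left₀ (abs_nonneg _) h3 2
  have h4 : ((s.re + 1 / 6) ^ 2 - s.im ^ 2) / 4 + 7 / 2 * |s.im| ≤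
      ((|a| + |b| + 1) ^ 2 / 4 + 16) + -(1 / 2 * |s.im|) := by
    rw [← sq_abs s.im]
    nlinarith [sq_nonneg (|s.im| - 8)]
  have h5 := Real.exp_le_exp.2 h4
  rw [Real.exp_add, Real.exp_add _ (-(1 / 2 * |s.im|))] at h5
  unfold P006.K.TRM.HH
  rw [norm_mul, norm_mul, norm_mul, norm_exp, e1, ofReal_one, one_cpow, norm_one, mul_one,
    norm_real, Real.norm_of_nonneg (Real.sqrt_nonneg _)]
  calc _ ≤ Real.sqrt Real.pi * Real.exp (((s.re + 1 / 6) ^ 2 - s.im ^ 2) / 4) *
        (|C| * Real.exp (7 / 2 * |s.im|)) := by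
        gcongr
        exact (hC s h0 h2).trans (by gcongr; exact le_abs_self C)
    _ = Real.sqrt Real.pi * |C| *
        (Real.exp (((s.re + 1 / 6) ^ 2 - s.im ^ 2) / 4) * Real.exp (7 / 2 * |s.im|)) := by ring
    _ ≤ Real.sqrt Real.pi * |C| *
        (Real.exp ((|a| + |b| + 1) ^ 2 / 4 + 16) * Real.exp (-(1 / 2 * |s.im|))) := by gcongr
    _ = _ := by ring

lemma shift2 {σ τ : ℝ} (hσ : σ ≤ τ) {y : ℝ} (hy : 0 < y) : ph 1 w6 σ y = ph 1 w6 τ y := by
  obtain ⟨K, hK, h⟩ := HB σ τ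
  unfold ph
  congr 1
  refine W2.sh (fun s => P006.K.TRM.HH 1 w6 s * (y : ℂ) ^ (s - 1)) σ τ (K * (y ^ (σ - 1) + y ^ (τ - 1))) (1 / 2)
    hσ (by norm_num) (Differentiable.differentiableOn ((HH_diff one_pos w6).mul fun s =>
      DifferentiableAt.const_cpow (by fun_prop) (Or.inl (by exact_mod_cast hy.ne')))) fun s a b => ?_
  rw [norm_mul, norm_cpow_eq_rpow_re_of_pos hy, sub_re, one_re]
  have p1 := Real.rpow_nonneg hy.le (σ - 1)
  have p2 := Real.rpow_nonneg hy.le (τ - 1)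
  have h1 : y ^ (s.re - 1) ≤ y ^ (σ - 1) + y ^ (τ - 1) := by
    rcases le_total y 1 with h2 | h2
    · linarith [Real.rpow_le_rpow_of_exponent_ge hy h2 (show σ - 1 ≤ s.re - 1 by linarith)]
    · linarith [Real.rpow_le_rpow_of_exponent_le h2 (show s.re - 1 ≤ τ - 1 by linarith)]
  calc _ ≤ K * Real.exp (-(1 / 2 * |s.im|)) * (y ^ (σ - 1) + y ^ (τ - 1)) :=
        mul_le_mul (h s a b) h1 (Real.rpow_nonneg hy.le _) ((norm_nonneg _).trans (h s a b))
    _ = _ := by ring

lemma line (σ : ℝ) : ∃ K : ℝ, ∀ u : ℝ, ‖P006.K.TRM.HH 1 w6 (σ + u * I)‖ ≤ K * Real.exp (-(1 / 2 * |u|)) := by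
  obtain ⟨K, -, h⟩ := HB σ σ
  exact ⟨K, fun u => by simpa using h (σ + u * I) (by simp) (by simp)⟩

lemma bd (σ : ℝ) : ∃ K : ℝ, ∀ y : ℝ, 0 < y → ‖ph 1 w6 2 y‖ ≤ K * y ^ (σ - 1) := by
  obtain ⟨K, h⟩ := line σ
  refine ⟨K * (∫ u : ℝ, Real.exp (-(1 / 2 * |u|))), fun y hy => ?_⟩
  have e : ph 1 w6 2 y = ph 1 w6 σ y := by
    rcases le_total σ 2 with h2 | h2
    · exact (shift2 h2 hy).symm
    · exact shift2 h2 hy
  rw [e]
  exact ph_bd h hy

lemma mph : Measurable (ph 1 w6 2) := ph_meas one_pos w6 2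

lemma intg (s : ℝ) : IntegrableOn (fun y : ℝ => ‖ph 1 w6 2 y‖ * y ^ s) (Ioi 0) := by
  have hm : Measurable fun y : ℝ => ‖ph 1 w6 2 y‖ * y ^ s := by
    have := mph
    fun_prop
  obtain ⟨K1, h1⟩ := bd (1 - s)
  obtain ⟨K2, h2⟩ := bd (-1 - s)
  rw [← Ioc_union_Ioi_eq_Ioi zero_le_one]
  refine IntegrableOn.union ?_ ?_
  · refine (integrableOn_const (C := K1) (by simp)).mono' hm.aestronglyMeasurable ?_
    filter_upwards [ae_restrict_mem measurableSet_Ioc] with y hy
    have hy0 : 0 < y := hy.1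
    rw [Real.norm_of_nonneg (by positivity)]
    calc ‖ph 1 w6 2 y‖ * y ^ s ≤ K1 * y ^ (1 - s - 1) * y ^ s := by
          gcongr; exact h1 y hy0
      _ = K1 := by
          rw [mul_assoc, ← Real.rpow_add hy0]; simp
  · refine ((integrableOn_Ioi_rpow_of_lt (a := -2) (by norm_num) one_pos).const_mul K2).mono'
      hm.aestronglyMeasurable ?_
    filter_upwards [ae_restrict_mem measurableSet_Ioi] with y hy
    have hy0 : 0 < y := lt_trans one_pos hy
    rw [Real.norm_of_nonneg (by positivity)]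
    calc ‖ph 1 w6 2 y‖ * y ^ s ≤ K2 * y ^ (-1 - s - 1) * y ^ s := by
          gcongr; exact h2 y hy0
      _ = K2 * y ^ (-2 : ℝ) := by
          rw [mul_assoc, ← Real.rpow_add hy0]; congr 2; ring

def kr (y : ℝ) : ℝ := (ph 1 w6 2 y).re

lemma mk : Measurable kr := Complex.measurable_re.comp mph

lemma it2 (s : ℝ) : IntegrableOn (fun y => kr y * y ^ s) (Ioi 0) := by
  have hm : Measurable fun y : ℝ => kr y * y ^ s := by
    have := mk
    fun_prop
  refine (intg s).mono' hm.aestronglyMeasurable ?_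
  filter_upwards [ae_restrict_mem measurableSet_Ioi] with y hy
  have hy0 : 0 < y := hy
  rw [norm_mul, Real.norm_of_nonneg (Real.rpow_nonneg hy0.le s)]
  exact mul_le_mul_of_nonneg_right (Complex.abs_re_le_norm _) (Real.rpow_nonneg hy0.le s)

lemma it3 (x : ℝ) (hx : 0 < x) :
    ∫ y in Ioi (0 : ℝ), kr y * Real.exp (-(y * x)) = x ^ (1 / 6 : ℝ) * VV 1 x := by
  obtain ⟨K, h⟩ := line 2
  have h1 := lap W2.ln one_pos h hx
  have hi : IntegrableOn (fun y : ℝ => ph 1 w6 2 y * cexp (-(y * x : ℝ))) (Ioi 0) := by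
    have := mph
    refine (intg 0).mono' (Measurable.aestronglyMeasurable (by fun_prop)) ?_
    filter_upwards [ae_restrict_mem measurableSet_Ioi] with y hy
    have hy0 : 0 < y := hy
    rw [norm_mul, ← ofReal_neg, norm_exp_ofReal, Real.rpow_zero]
    refine mul_le_mul_of_nonneg_left (Real.exp_le_one_iff.2 ?_) (norm_nonneg _)
    have := mul_pos hy0 hx
    linarith
  have h2 := congrArg Complex.re h1
  have h3 := integral_re hi
  simp only [RCLike.re_to_complex] at h3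
  rw [← h3] at h2
  have e1 : ((x : ℂ) ^ w6 * (VV 1 x : ℂ)).re = x ^ (1 / 6 : ℝ) * VV 1 x := by
    rw [w6, ← ofReal_cpow hx.le, ← ofReal_mul, ofReal_re]
  rw [e1] at h2
  rw [← h2]
  refine setIntegral_congr_fun measurableSet_Ioi fun y _ => ?_
  simp only [kr]
  rw [← ofReal_neg, ← ofReal_exp, re_mul_ofReal]

lemma gau : ∫ x in Ioi (0 : ℝ), x ^ (-1 / 6 : ℝ) * VV 1 x =
    Real.sqrt Real.pi * Real.exp (25 / 144) := by
  have h := W2.ln.fwd 1 ((-5 / 6 : ℝ) : ℂ) one_pos
  apply Complex.ofReal_injective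
  rw [← integral_complex_ofReal]
  calc _ = _ := by
        refine setIntegral_congr_fun measurableSet_Ioi fun x hx => ?_
        have hx' : 0 < x := hx
        have e : VV 1 x = VV x 1 := by
          unfold VV
          rw [Real.log_div hx'.ne' one_ne_zero, Real.log_div one_ne_zero hx'.ne']
          congr 1
          ring
        change ((x ^ (-1 / 6 : ℝ) * VV 1 x : ℝ) : ℂ) =
          (VV x 1 : ℂ) * (x : ℂ) ^ (-((-5 / 6 : ℝ) : ℂ) - 1)
        rw [e, ofReal_mul, ofReal_cpow hx'.le, mul_comm]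
        congr 2
        push_cast
        ring
    _ = _ := h
    _ = _ := by
        rw [ofReal_one, one_cpow, mul_one, ofReal_mul, ofReal_exp]
        congr 2
        push_cast
        ring

lemma it4 : ∫ y in Ioi (0 : ℝ), kr y * y ^ (-2 / 3 : ℝ) =
    Real.sqrt Real.pi * Real.exp (25 / 144) / Real.Gamma (2 / 3) := by
  have hG : 0 < Real.Gamma (2 / 3) := Real.Gamma_pos_of_pos (by norm_num)
  have val : ∀ y : ℝ, 0 < y → ∫ x in Ioi (0 : ℝ), x ^ ((2 / 3 : ℝ) - 1) * Real.exp (-(y * x)) =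
      y ^ (-2 / 3 : ℝ) * Real.Gamma (2 / 3) := fun y hy => by
    rw [Real.integral_rpow_mul_exp_neg_mul_Ioi (by norm_num) hy, one_div, Real.inv_rpow hy.le,
      ← Real.rpow_neg hy.le]
    norm_num
  have ix : ∀ y : ℝ, 0 < y →
      IntegrableOn (fun x : ℝ => x ^ ((2 / 3 : ℝ) - 1) * Real.exp (-(y * x))) (Ioi 0) :=
    fun y hy => .of_integral_ne_zero (by rw [val y hy]; positivity)
  have hm := mk
  have hI : Integrable (Function.uncurry fun (x y : ℝ) =>
      kr y * (x ^ ((2 / 3 : ℝ) - 1) * Real.exp (-(y * x))))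
      ((volume.restrict (Ioi 0)).prod (volume.restrict (Ioi 0))) := by
    rw [integrable_prod_iff' (Measurable.aestronglyMeasurable (by
      unfold Function.uncurry
      fun_prop))]
    constructor
    · filter_upwards [ae_restrict_mem measurableSet_Ioi] with y hy
      exact (ix y hy).const_mul (kr y)
    · refine ((it2 (-2 / 3)).norm.mul_const (Real.Gamma (2 / 3))).congr ?_
      filter_upwards [ae_restrict_mem measurableSet_Ioi] with y hy
      have hy' : 0 < y := hy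
      simp only [Function.uncurry, norm_mul]
      rw [integral_const_mul, Real.norm_of_nonneg (Real.rpow_nonneg hy'.le _), mul_assoc,
        ← val y hy']
      congr 1
      refine setIntegral_congr_fun measurableSet_Ioi fun x hx => ?_
      have hx' : 0 < x := hx
      rw [Real.norm_of_nonneg (Real.rpow_nonneg hx'.le _), Real.norm_of_nonneg (Real.exp_pos _).le]
  have h1 := integral_integral_swap hI
  rw [eq_div_iff hG.ne', ← gau, ← integral_mul_const]
  calc _ = _ := by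
        refine setIntegral_congr_fun measurableSet_Ioi fun y hy => ?_
        have hy' : 0 < y := hy
        change kr y * y ^ (-2 / 3 : ℝ) * Real.Gamma (2 / 3) =
          ∫ x in Ioi (0 : ℝ), kr y * (x ^ ((2 / 3 : ℝ) - 1) * Real.exp (-(y * x)))
        rw [integral_const_mul, val y hy', mul_assoc]
    _ = _ := h1.symm
    _ = _ := by
        refine setIntegral_congr_fun measurableSet_Ioi fun x hx => ?_
        have hx' : 0 < x := hx
        change ∫ y in Ioi (0 : ℝ), kr y * (x ^ ((2 / 3 : ℝ) - 1) * Real.exp (-(y * x))) =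
          x ^ (-1 / 6 : ℝ) * VV 1 x
        have e : ∀ y : ℝ, kr y * (x ^ ((2 / 3 : ℝ) - 1) * Real.exp (-(y * x))) =
            x ^ ((2 / 3 : ℝ) - 1) * (kr y * Real.exp (-(y * x))) := fun y => by ring
        simp only [e]
        rw [integral_const_mul, it3 x hx', ← mul_assoc, ← Real.rpow_add hx']
        norm_num

end REPM

theorem repS : REPStmt := ⟨REPM.kr, REPM.mk, REPM.it2, REPM.it3, REPM.it4⟩

end Vale.Agent.P006.D
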