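import Vale.Agent.P006.D
import Vale.Agent.P006.L.L3

/-! P006 row DST: bound for the restricted dual form. -/

noncomputable section
open Complex MeasureTheory Filter Topology
open scoped Classical ComplexConjugate

namespace Vale.Agent.P006.D
open Vale.Agent.P026

namespace STM
open SS0M L3M

/-- coefficients -/
def zq (b : O → ℂ) (h n : O) : ℂ := b n * conj (cub h n)
/-- one frequency -/
def Eq1 (M : ℝ) (T : Finset O) (b : O → ℂ) (h : O) : ℂ :=
  ∑ n1 ∈ T, ∑ n2 ∈ T, zq b h n1 * conj (zq b h n2) *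
    (((Real.sqrt (N n1 * N n2) : ℂ))⁻¹ * cexp (-(sg * M * N h / 9 / (N n1 * N n2) : ℝ)))

theorem sg9 : 9 ≤ sg := by
  unfold sg
  nlinarith [Real.pi_gt_three]

theorem blockE {P : O → Prop} {M Y K B σ L : ℝ} {S T : Finset O} (b : O → ℂ) (hM : 0 < M)
    (hY : 0 < Y) (hL : 0 < L) (hB : 0 ≤ B)
    (hσ : σ = 1 / 4 ∨ σ = 2) (hT : ∀ n ∈ T, SP n ∧ Y / 2 < N n ∧ N n ≤ Y) (hA : LP P K Y B)
    (hS : ∀ h ∈ S, P h ∧ L ≤ N h ∧ N h ≤ K) :
    ∑ h ∈ S, ‖Eq1 M T b h‖ ≤
      L3M.GG σ * Y⁻¹ * ((L / (Y ^ 2 / M)) ^ (-σ) * B) * ∑ n ∈ T, ‖b n‖ ^ 2 := by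
  have s0 : 0 < σ := by rcases hσ with h | h <;> rw [h] <;> norm_num
  have n0 : ∀ n ∈ T, 0 < N n := fun n hn => by linarith [(hT n hn).2.1]
  have pi := Real.pi_gt_three
  have a : ∀ u : ℝ, ∑ h ∈ S, ‖Poi3.SP T (zq b h) N σ u‖ ^ 2 ≤
      B * (2 * Y ^ (-1 + 2 * σ) * ∑ n ∈ T, ‖b n‖ ^ 2) := fun u => by
    have := hA S T (fun n => conj (b n * (N n : ℂ) ^ (-1 / 2 + σ + u * I)))
      (fun h hh => ⟨(hS h hh).1, (hS h hh).2.2⟩) fun n hn => ⟨(hT n hn).1, (hT n hn).2.2⟩
    refine le_trans (le_of_eq (Finset.sum_congr rfl fun h _ => ?_)) (this.trans ?_)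
    · rw [← norm_conj, Poi3.SP, map_sum]
      congr 2
      refine Finset.sum_congr rfl fun n _ => ?_
      simp only [zq, map_mul, conj_conj]
      ring
    · refine mul_le_mul_of_nonneg_left ?_ hB
      rw [Finset.mul_sum]
      refine Finset.sum_le_sum fun n hn => ?_
      have p := n0 n hn
      rw [norm_conj, norm_mul, norm_cpow_eq_rpow_re_of_pos p, mul_pow, mul_comm,
        ← Real.rpow_natCast, ← Real.rpow_mul p.le]
      gcongr
      rcases hσ with rfl | rfl
      · refine le_trans (le_of_eq (by congr 1; simp; norm_num)) ((Real.rpow_le_rpow_of_nonpos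
          (show 0 < Y / 4 by positivity) (show Y / 4 ≤ N n by linarith [(hT n hn).2.1])
          (show (-1 + 2 * (1 / 4) : ℝ) ≤ 0 by norm_num)).trans_eq ?_)
        rw [Real.div_rpow hY.le (by norm_num), show (4 : ℝ) = 2 ^ (2 : ℝ) by norm_num,
          ← Real.rpow_mul (by norm_num)]
        norm_num
        ring
      · refine le_trans (le_of_eq (by congr 1; simp; norm_num)) ((Real.rpow_le_rpow p.le (hT n hn).2.2
          (show (0 : ℝ) ≤ -1 + 2 * 2 by norm_num)).trans ?_)
        linarith [Real.rpow_pos_of_pos hY (-1 + 2 * 2)]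
  have i := fun h => Poi3.SP_int gamS T (zq b h) N n0 s0
  calc _ ≤ ∑ h ∈ S, 1 / 2 * (M * L) ^ (-σ) *
        ∫ u : ℝ, ‖Gamma (σ + u * I)‖ * ‖Poi3.SP T (zq b h) N σ u‖ ^ 2 := by
        refine Finset.sum_le_sum fun h hh => ?_
        have q : M * L ≤ sg * M * N h / 9 := by
          have q1 := mul_le_mul_of_nonneg_left (hS h hh).2.1 hM.le
          have q2 := mul_le_mul_of_nonneg_right sg9 ((mul_pos hM hL).le.trans q1)
          linarith
        refine (Poi3.sep gamS T (zq b h) N n0 ((mul_pos hM hL).trans_le q) s0).trans ?_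
        have := integral_nonneg (μ := volume)
          (f := fun u : ℝ => ‖Gamma (σ + u * I)‖ * ‖Poi3.SP T (zq b h) N σ u‖ ^ 2) fun u => by positivity
        refine mul_le_mul_of_nonneg_right (mul_le_mul ?_ (Real.rpow_le_rpow_of_nonpos (mul_pos hM hL) q
          (by linarith)) (Real.rpow_nonneg ((mul_pos hM hL).le.trans q) _) (by norm_num)) this
        exact one_div_le_one_div_of_le (by norm_num) (by linarith)
    _ ≤ 1 / 2 * (M * L) ^ (-σ) * ∫ u : ℝ, ‖Gamma (σ + u * I)‖ *
        (B * (2 * Y ^ (-1 + 2 * σ) * ∑ n ∈ T, ‖b n‖ ^ 2)) := by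
        rw [← Finset.mul_sum, ← integral_finsetSum _ fun h _ => i h]
        gcongr
        · exact integrable_finsetSum _ fun h _ => i h
        · exact (PS1M.gam_int gamS s0).norm.mul_const _
        · intro u
          simp only [← Finset.mul_sum]
          exact mul_le_mul_of_nonneg_left (a u) (norm_nonneg _)
    _ = _ := by
        rw [integral_mul_const, ← L3M.GG, div_div_eq_mul_div, Real.div_rpow (by positivity) (by positivity),
          ← Real.rpow_natCast Y 2, ← Real.rpow_mul hY.le, Real.rpow_add hY, Real.rpow_neg_one, mul_comm L,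
          show ((2 : ℕ) : ℝ) * -σ = -(2 * σ) by push_cast; ring, Real.rpow_neg hY.le]
        field_simp

theorem neQ (h : O) : ‖eQ h 3‖ = 1 := W1.bas.b1.norm_psi _

end STM

open STM L3M SS0M

theorem stS : STStmt := by
  have hB := W1.bas
  have a1 := rr1
  have c0 : 0 ≤ (L3M.GG (1 / 4) + L3M.GG 2) * (24 / (rr - 1)) :=
    mul_nonneg (add_nonneg (GG0 _) (GG0 _)) (div_nonneg (by norm_num) (by linarith))
  refine ⟨(L3M.GG (1 / 4) + L3M.GG 2) * (24 / (rr - 1)), c0,
    fun P M X Y α β γ b hM hY hα hβ hγ hP hb hA => ?_⟩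
  have hK : 0 < Y ^ 2 / M := by positivity
  obtain ⟨T, hTd⟩ : ∃ T, T = (SQ X).filter fun n => b n ≠ 0 := ⟨_, rfl⟩
  have hT : ∀ n ∈ T, SP n ∧ Y / 2 < N n ∧ N n ≤ Y := fun n hn => by
    rw [hTd, Finset.mem_filter] at hn
    exact ⟨(((memS hB).1 X n).1 hn.1).1, hb n hn.2⟩
  have n0 : ∀ n ∈ T, 0 < N n := fun n hn => by linarith [(hT n hn).2.1]
  have eb : nb X b = ∑ n ∈ T, ‖b n‖ ^ 2 := by
    rw [hTd, nb]
    refine (Finset.sum_filter_of_ne (p := fun n => b n ≠ 0) ?_).symm
    exact fun n _ h (e : b n = 0) => h (by simp [e])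
  have eF : QP P M X b = ∑' h, if P h then eQ h 3 * Eq1 M T b h else 0 := by
    have sm : ∀ n1 ∈ T, ∀ n2 ∈ T, Summable fun h => b n1 * conj (b n2) /
        (Real.sqrt (N n1 * N n2) : ℝ) *
        (if P h then eQ h 3 * (conj (cub h n1) * cub h n2) * ew M n1 n2 h else 0) := by
      intro n1 h1 n2 h2
      have p1 := n0 n1 h1
      have p2 := n0 n2 h2
      refine Summable.mul_left _ ?_
      refine Summable.of_norm_bounded (summ_exp hB (c := sg * M / (9 * (N n1 * N n2)))
        (by have := sg1; positivity)) fun h => ?_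
      split_ifs
      · rw [norm_mul, norm_mul, norm_mul, norm_conj, neQ, one_mul, ew, cexp_norm,
          div_mul_eq_mul_div (sg * M)]
        refine mul_le_of_le_one_left (Real.exp_pos _).le ?_
        exact mul_le_one₀ (hB.b6.norm_le _ _) (norm_nonneg _) (hB.b6.norm_le _ _)
      · rw [norm_zero]
        exact (Real.exp_pos _).le
    have e1 : ∀ h, (if P h then eQ h 3 * Eq1 M T b h else 0) =
        ∑ n1 ∈ T, ∑ n2 ∈ T, b n1 * conj (b n2) / (Real.sqrt (N n1 * N n2) : ℝ) *
        (if P h then eQ h 3 * (conj (cub h n1) * cub h n2) * ew M n1 n2 h else 0) := by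
      intro h
      split_ifs
      · rw [Eq1, Finset.mul_sum]
        refine Finset.sum_congr rfl fun n1 _ => ?_
        rw [Finset.mul_sum]
        refine Finset.sum_congr rfl fun n2 _ => ?_
        rw [ew, div_div]
        simp only [zq, map_mul, conj_conj]
        ring
      · simp
    rw [tsum_congr e1, Summable.tsum_finsetSum fun n1 h1 => summable_sum fun n2 h2 => sm n1 h1 n2 h2,
      QP, ← Finset.sum_filter_of_ne (p := fun n => b n ≠ 0) fun n _ h (e : b n = 0) => h (by simp [e]),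
      ← hTd]
    refine Finset.sum_congr rfl fun n1 h1 => ?_
    rw [Summable.tsum_finsetSum fun n2 h2 => sm n1 h1 n2 h2,
      ← Finset.sum_filter_of_ne (p := fun n => b n ≠ 0) fun n _ h (e : b n = 0) => h (by simp [e]),
      ← hTd]
    refine Finset.sum_congr rfl fun n2 _ => ?_
    rw [tsum_mul_left]
  obtain ⟨Φ, hΦ⟩ : ∃ Φ : ℝ → ℝ, Φ = fun K => α * K ^ (1 / 3 : ℝ) + β * K ^ (2 / 3 : ℝ) + γ * K ^ (4 / 3 : ℝ) :=
    ⟨_, rfl⟩
  have Φ0 : ∀ K, 0 < K → 0 ≤ Φ K := fun K hK => by
    rw [hΦ]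
    positivity
  obtain ⟨D, hD⟩ : ∃ D, D = (L3M.GG (1 / 4) + L3M.GG 2) * (24 / (rr - 1)) * Y⁻¹ *
    min 1 (Real.sqrt (Y ^ 2 / M)) * Φ (Y ^ 2 / M) * ∑ n ∈ T, ‖b n‖ ^ 2 := ⟨_, rfl⟩
  have D0 : 0 ≤ D := by
    have := Φ0 _ hK
    rw [hD]
    positivity
  have r : ∀ S : Finset O, (∀ h ∈ S, P h) → ∑ h ∈ S, ‖Eq1 M T b h‖ ≤ D := fun S hS => by
    have f : ∀ h ∈ S, Nat.log 2 (Nn h) ∈ Finset.range (S.sup (fun h => Nat.log 2 (Nn h)) + 1) :=
      fun h hh => Finset.mem_range_succ_iff.2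
        (Finset.le_sup (f := fun h => Nat.log 2 (Nn h)) hh)
    rw [← Finset.sum_fiberwise_of_maps_to f]
    generalize S.sup (fun h => Nat.log 2 (Nn h)) + 1 = J
    calc _ ≤ ∑ j ∈ Finset.range J, D * (Hp (Y ^ 2 / M) (j + 1) - Hp (Y ^ 2 / M) j) := by
          refine Finset.sum_le_sum fun j _ => ?_
          have j1 : (1 : ℝ) ≤ 2 ^ (j + 1) := one_le_pow₀ one_le_two
          refine (STM.blockE (σ := sig (Y ^ 2 / M) j) (L := 2 ^ j) b hM hY (by positivity)
            (by positivity) (by unfold sig; split_ifs <;> simp) hT (hA _ j1) fun h hh => ?_).trans ?_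
          · obtain ⟨h1, rfl⟩ := Finset.mem_filter.1 hh
            have h0 := hP h (hS h h1)
            have h2 : Nn h ≠ 0 := fun e => by
              have := hB.b1.N_one_le h h0
              rw [N, e] at this
              norm_num at this
            refine ⟨hS h h1, ?_, ?_⟩
            · unfold N
              exact_mod_cast Nat.pow_log_le_self 2 h2
            · unfold N
              exact_mod_cast (Nat.lt_pow_succ_log_self one_lt_two _).le
          · have b1 := mul_le_mul_of_nonneg_left (blk hK le_rfl (by norm_num) j) hα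
            have b2 := mul_le_mul_of_nonneg_left (blk (θ := 2 / 3) hK (by norm_num) (by norm_num) j) hβ
            have b3 := mul_le_mul_of_nonneg_left (blk hK (by norm_num) le_rfl j) hγ
            have g : L3M.GG (sig (Y ^ 2 / M) j) ≤ L3M.GG (1 / 4) + L3M.GG 2 := by
              unfold sig
              split_ifs <;> linarith [GG0 (1 / 4), GG0 2]
            have g0 := GG0 (sig (Y ^ 2 / M) j)
            have g1 := g0.trans g
            calc _ ≤ (L3M.GG (1 / 4) + L3M.GG 2) * Y⁻¹ * (24 / (rr - 1) * min 1 (Real.sqrt (Y ^ 2 / M)) *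
                  (Hp (Y ^ 2 / M) (j + 1) - Hp (Y ^ 2 / M) j) * Φ (Y ^ 2 / M)) * ∑ n ∈ T, ‖b n‖ ^ 2 := by
                  refine mul_le_mul_of_nonneg_right (mul_le_mul (by gcongr) ?_ (by positivity)
                    (by positivity)) (by positivity)
                  rw [hΦ]
                  linarith
              _ = _ := by
                  rw [hD]
                  ring
      _ ≤ D := by
          rw [← Finset.mul_sum, Finset.sum_range_sub]
          refine mul_le_of_le_one_right D0 ?_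
          have u : ∀ j, 0 ≤ Hp (Y ^ 2 / M) j ∧ Hp (Y ^ 2 / M) j ≤ 1 := fun j =>
            ⟨by unfold Hp; positivity, (div_le_one (by positivity)).2 (by linarith)⟩
          linarith [(u J).2, (u 0).1]
  have main : ∀ S : Finset O, ∑ h ∈ S, ‖if P h then eQ h 3 * Eq1 M T b h else 0‖ ≤ D := fun S => by
    refine le_trans (le_of_eq ?_) (r (S.filter P) fun h hh => (Finset.mem_filter.1 hh).2)
    rw [Finset.sum_filter]
    refine Finset.sum_congr rfl fun h _ => ?_
    split_ifs
    · rw [norm_mul, neQ, one_mul]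
    · exact norm_zero
  have sE := summable_of_sum_le
    (fun h => norm_nonneg (if P h then eQ h 3 * Eq1 M T b h else 0)) main
  rw [eF, eb]
  refine ((norm_tsum_le_tsum_norm sE).trans (sE.tsum_le_of_sum_le main)).trans ?_
  have f0 := Φ0 _ hK
  have m1 : min 1 (Real.sqrt (Y ^ 2 / M)) ≤ 1 := min_le_left _ _
  calc D ≤ (L3M.GG (1 / 4) + L3M.GG 2) * (24 / (rr - 1)) * Y⁻¹ * 1 * Φ (Y ^ 2 / M) * ∑ n ∈ T, ‖b n‖ ^ 2 := by
        rw [hD]
        gcongr
    _ = _ := by
        rw [hΦ]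
        ring

end Vale.Agent.P006.D
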