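import Vale.Agent.P006.D
import Vale.Agent.P006.Vau

/-! P006 branch D: frequencies of small conductor. -/

noncomputable section
open Finset
open scoped Classical ComplexConjugate

namespace Vale.Agent.P006.D

open Vale.Agent.P026 W1 Vau

namespace SWM

theorem sexp {c : ℝ} (hc : 0 < c) : Summable fun h : O => Real.exp (-(c * N h)) := by
  refine .of_norm_bounded_eventually ((bas.b3.summ 2 one_lt_two).mul_left (2 / c ^ 2)) ?_
  filter_upwards [Filter.eventually_cofinite_ne 0] with h h0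
  have h1 := bas.b1.N_one_le h h0
  have h2 := Real.pow_div_factorial_le_exp (c * N h) (by positivity) 2
  rw [Real.norm_of_nonneg (Real.exp_pos _).le, Real.exp_neg, Real.rpow_neg (N0 h), Real.rpow_two]
  refine (inv_anti₀ (by positivity) h2).trans (le_of_eq ?_)
  simp only [Nat.factorial, Nat.succ_eq_add_one]
  field_simp
  norm_num

def FF (P : O → Prop) (M : ℝ) (b : O → ℂ) (n1 n2 h : O) : ℂ :=
  b n1 * conj (b n2) / (Real.sqrt (N n1 * N n2) : ℝ) *
    if P h then eQ h 3 * (conj (cub h n1) * cub h n2) * ew M n1 n2 h else 0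

theorem swap (P : O → Prop) {M : ℝ} (hM : 0 < M) (Y : ℝ) (b : O → ℂ) :
    QP P M Y b = ∑' h, ∑ n2 ∈ SQ Y, ∑ n1 ∈ SQ Y, FF P M b n1 n2 h := by
  have mem := (memS bas).1
  have sg9 : 9 ≤ sg := by rw [sg]; nlinarith [Real.pi_gt_three]
  have sF : ∀ n1 ∈ SQ Y, ∀ n2 ∈ SQ Y, Summable (FF P M b n1 n2) := fun n1 k1 n2 k2 => by
    have a1 := N1 ((mem _ _).1 k1).1.1
    have a2 := N1 ((mem _ _).1 k2).1.1
    refine Summable.mul_left _ (.of_norm_bounded (sexp (c := sg * M / (9 * (N n1 * N n2)))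
      (by positivity)) fun h => ?_)
    split_ifs
    · rw [norm_mul, norm_mul, norm_mul, eQ, bas.b1.norm_psi, one_mul, ew, ← Complex.ofReal_neg,
        Complex.norm_exp_ofReal, div_mul_eq_mul_div, RCLike.norm_conj]
      exact mul_le_of_le_one_left (Real.exp_pos _).le
        (mul_le_one₀ (bas.b6.norm_le _ _) (norm_nonneg _) (bas.b6.norm_le _ _))
    · simpa using (Real.exp_pos _).le
  rw [Summable.tsum_finsetSum fun n2 k2 => summable_sum fun n1 k1 => sF n1 k1 n2 k2, QP, sum_comm]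
  refine sum_congr rfl fun n2 k2 => ?_
  rw [Summable.tsum_finsetSum fun n1 k1 => sF n1 k1 n2 k2]
  refine sum_congr rfl fun n1 _ => ?_
  simp only [FF]
  rw [tsum_mul_left]

theorem psum {Y w D : ℝ} {b : O → ℂ} (hb : Ro Y w b) (h0 j : O) (y : ℝ)
    (hS : ‖∑ n ∈ (SQ Y).filter (fun n => N n ≤ y), b n * conj (cub h0 n)‖ ≤ D) :
    ‖∑ n ∈ (SQ Y).filter (fun n => N n ≤ y), b n * conj (cub (h0 * j ^ 3) n)‖ ≤
      D + (((SQ Y).filter fun n => b n ≠ 0).filter fun n => ¬ IsCoprime j n).card := by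
  have mem := (memS bas).1
  have : ∑ n ∈ (SQ Y).filter (fun n => N n ≤ y), b n * conj (cub (h0 * j ^ 3) n) =
      ∑ n ∈ (SQ Y).filter (fun n => N n ≤ y), b n * conj (cub h0 n) -
      ∑ n ∈ ((SQ Y).filter (fun n => N n ≤ y)).filter (fun n => b n ≠ 0 ∧ ¬ IsCoprime j n),
        b n * conj (cub h0 n) := by
    rw [sum_filter (fun n => b n ≠ 0 ∧ ¬ IsCoprime j n), ← sum_sub_distrib]
    refine sum_congr rfl fun n hn => ?_
    have p := ((mem _ _).1 (mem_filter.1 hn).1).1.1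
    have p3 := bas.b2.cop n p
    rw [bas.b6.mul_l _ _ _ p3, bas.b6.pow_l _ _ _ p3]
    by_cases k1 : IsCoprime j n
    · simp [k1, bas.b6.cube _ _ k1]
    · by_cases k2 : b n = 0 <;> simp [k1, k2, bas.b6.zero _ _ (bas.b2.ne n p) k1]
  rw [this]
  refine (norm_sub_le _ _).trans (add_le_add hS ((norm_sum_le_of_le _
    (n := fun _ => 1) fun n _ => ?_).trans ?_))
  · rw [norm_mul, RCLike.norm_conj]
    exact mul_le_one₀ (hb.le n) (norm_nonneg _) (bas.b6.norm_le _ _)
  · rw [sum_const, nsmul_eq_mul, mul_one, Nat.cast_le]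
    refine card_le_card fun n hn => ?_
    simp only [mem_filter] at hn ⊢
    tauto

theorem one (hA : ABStmt) {P : O → Prop} {M Y w D x : ℝ} {b : O → ℂ} (hM : 0 < M) (hY : 2 ≤ Y)
    (hb : Ro Y w b) {h : O} (k : P h) (hD : 0 ≤ D) (hx : x ≤ N h)
    (ps : ∀ y : ℝ, ‖∑ n ∈ (SQ Y).filter (fun n => N n ≤ y), b n * conj (cub h n)‖ ≤ D) :
    ‖∑ n2 ∈ SQ Y, ∑ n1 ∈ SQ Y, FF P M b n1 n2 h‖ ≤ 128 * (D * Real.exp (-(M / Y ^ 2 * x))) := by
  have mem := (memS bas).1
  have sg9 : 9 ≤ sg := by rw [sg]; nlinarith [Real.pi_gt_three]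
  have sq0 : 0 < Real.sqrt (Y / 2) := Real.sqrt_pos.2 (by linarith)
  have z := N0 h
  refine (norm_sum_le_of_le _ (n := fun _ => (Real.sqrt (Y / 2))⁻¹ * (4 * D * (Real.sqrt (Y / 2))⁻¹ *
    Real.exp (-(M / Y ^ 2 * x)))) fun n2 k2 => ?_).trans ?_
  · by_cases k3 : b n2 = 0
    · simp only [FF, k3, map_zero, mul_zero, zero_div, zero_mul, sum_const_zero, norm_zero]
      positivity
    obtain ⟨p1, p2, p3, -⟩ := hb.supp n2 k3
    have a := hA (SQ Y) (fun n => b n * conj (cub h n)) Y D (sg * M * N h / (9 * N n2))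
      (by linarith) hD (by have := N0 n2; positivity)
      (fun n _ hn => by
        have := hb.supp n (left_ne_zero_of_mul hn)
        exact ⟨this.2.1, this.2.2.1⟩) ps
    have e3 : ∑ n1 ∈ SQ Y, FF P M b n1 n2 h =
        conj (b n2) * eQ h 3 * cub h n2 * ((Real.sqrt (N n2))⁻¹ : ℝ) *
        ∑ n ∈ SQ Y, b n * conj (cub h n) * (((Real.sqrt (N n))⁻¹ *
          Real.exp (-(sg * M * N h / (9 * N n2) / N n)) : ℝ) : ℂ) := by
      rw [mul_sum]
      refine sum_congr rfl fun n _ => ?_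
      simp only [FF, if_pos k, ew]
      rw [Real.sqrt_mul (N0 n), div_div, mul_assoc 9, mul_comm (N n2)]
      push_cast
      ring
    rw [e3, norm_mul]
    refine mul_le_mul ?_ (a.trans ?_) (norm_nonneg _) (by positivity)
    · rw [norm_mul, norm_mul, norm_mul, eQ, bas.b1.norm_psi, mul_one, RCLike.norm_conj,
        Complex.norm_real, Real.norm_of_nonneg (by positivity)]
      exact (mul_le_of_le_one_left (by positivity) (mul_le_one₀ (hb.le _) (norm_nonneg _)
        (bas.b6.norm_le _ _))).trans (inv_anti₀ sq0 (Real.sqrt_le_sqrt p2.le))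
    · refine mul_le_mul_of_nonneg_left (Real.exp_le_exp.2 (neg_le_neg ?_)) (by positivity)
      have y0 : 0 < N n2 := by linarith
      calc _ ≤ M / Y ^ 2 * N h := by gcongr
        _ = 9 * M * N h / (9 * Y) / Y := by field_simp
        _ ≤ _ := by gcongr
  · have cd := bas.b3.card_le Y (SQ Y) (by linarith) fun a ha =>
      ⟨bas.b2.ne a ((mem _ _).1 ha).1.1, ((mem _ _).1 ha).2⟩
    have e4 : (Real.sqrt (Y / 2))⁻¹ * (Real.sqrt (Y / 2))⁻¹ * Y = 2 := by
      rw [← mul_inv, Real.mul_self_sqrt (by linarith)]; field_simp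
    rw [sum_const, nsmul_eq_mul]
    refine (mul_le_mul_of_nonneg_right cd (by positivity)).trans (le_of_eq ?_)
    linear_combination 64 * D * Real.exp (-(M / Y ^ 2 * x)) * e4

end SWM

open SWM in
theorem swS (h1 : C1Stmt) (h2 : NCStmt) (hA : ABStmt) : SWStmt := by
  obtain ⟨C1, C10, hC1⟩ := h1
  obtain ⟨C2, C20, hC2⟩ := h2
  refine ⟨2048 * (C1 + C2), by positivity, fun M Y w R δ b hM hY hw hR hδ hb hS => ?_⟩
  set P : O → Prop := fun h => h ≠ 0 ∧ ¬ IsCu h ∧ ¬ Big R h with hP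
  set T := (SQ Y).filter fun n => b n ≠ 0 with hT
  set c := M / Y ^ 2 with hc
  have c0 : 0 < c := by positivity
  set G : O → ℝ := fun j => δ * Y * (if j = 0 then 0 else Real.exp (-(c * N j ^ 3))) +
    if j = 0 then 0 else Real.exp (-(c * N j ^ 3)) * ((T.filter fun n => ¬ IsCoprime j n).card : ℝ)
    with hG
  have G0 : ∀ j, 0 ≤ G j := fun j => by simp only [hG]; split_ifs <;> positivity
  have s1 : Summable fun j : O => if j = 0 then 0 else Real.exp (-(c * N j ^ 3)) :=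
    (hC1 c c0).1.of_nonneg_of_le (fun j => by split_ifs <;> positivity) fun j => by
      split_ifs; exacts [(Real.exp_pos _).le, le_rfl]
  have s2 : Summable fun j : O => if j = 0 then 0 else
      Real.exp (-(c * N j ^ 3)) * ((T.filter fun n => ¬ IsCoprime j n).card : ℝ) :=
    ((hC1 c c0).1.mul_right (T.card : ℝ)).of_nonneg_of_le (fun j => by split_ifs <;> positivity)
      fun j => by
        split_ifs
        · positivity
        · exact mul_le_mul_of_nonneg_left (Nat.cast_le.2 (card_filter_le _ _)) (Real.exp_pos _).le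
  have sG : Summable G := (s1.mul_left _).add s2
  have tG : ∑' j, G j ≤ (C1 + C2) * (M ^ (-1 / 3 : ℝ) * Y ^ (5 / 3 : ℝ) * (δ + w ^ (-1 / 2 : ℝ))) := by
    have e : Y * c ^ (-1 / 3 : ℝ) = M ^ (-1 / 3 : ℝ) * Y ^ (5 / 3 : ℝ) := by
      rw [hc, Real.div_rpow hM.le (by positivity), ← Real.rpow_two, ← Real.rpow_mul (by linarith),
        div_eq_mul_inv, ← Real.rpow_neg (by linarith), mul_left_comm,
        ← Real.rpow_one_add' (by linarith) (by norm_num)]
      norm_num
    have a1 := mul_le_mul_of_nonneg_left (hC1 c c0).2.2 (show 0 ≤ δ * Y by positivity)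
    have a2 := (hC2 Y w T (by linarith) hw fun n hn => by
      have := hb.supp n (mem_filter.1 hn).2
      exact ⟨this.1.1, this.2.2.1, this.2.2.2⟩).1 c c0
    rw [(s1.mul_left _).tsum_add s2, tsum_mul_left, ← e]
    have a3 : 0 ≤ Y * c ^ (-1 / 3 : ℝ) := by positivity
    have a4 : 0 ≤ w ^ (-1 / 2 : ℝ) := by positivity
    nlinarith [mul_nonneg (mul_nonneg C10 a3) a4, mul_nonneg (mul_nonneg C20 a3) hδ]
  have dec : ∀ h, ∃ q : O × O, P h → h = q.1 * q.2 ^ 3 ∧ N q.1 ≤ R := fun h => by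
    by_cases k : P h
    · by_contra z
      push Not at z
      exact k.2.2 ⟨k.1, fun h0 j e => (z (h0, j)).2 e⟩
    · exact ⟨0, fun z => (k z).elim⟩
  choose q hq using dec
  have bd : ∀ h, ‖∑ n2 ∈ SQ Y, ∑ n1 ∈ SQ Y, FF P M b n1 n2 h‖ ≤
      if P h then 128 * G (q h).2 else 0 := by
    intro h
    split_ifs with k
    swap
    · simp [FF, k]
    obtain ⟨e1, e2⟩ := hq h k
    generalize (q h).1 = h0 at *
    generalize (q h).2 = j at *
    have z1 : h0 ≠ 0 := fun z => k.1 (by rw [e1, z, zero_mul])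
    have z2 : j ≠ 0 := fun z => k.1 (by rw [e1, z]; simp)
    have z3 : ¬ IsCu h0 := fun ⟨a, ha⟩ => k.2.1 ⟨a * j, by rw [e1, ha, mul_pow]⟩
    refine (one hA hM hY hb k (x := N j ^ 3) (by positivity) ?_ fun y => e1 ▸
      psum hb h0 j y (hS h0 z1 z3 e2 y)).trans (le_of_eq ?_)
    · rw [e1, bas.b1.N_mul, bas.b1.N_pow]
      exact le_mul_of_one_le_left (pow_nonneg (N0 j) 3) (bas.b1.N_one_le h0 z1)
    · simp only [hG, if_neg z2]
      ring
  have fin : ∀ S : Finset O, ∑ h ∈ S, (if P h then 128 * G (q h).2 else 0) ≤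
      16 * R * (128 * ∑' j, G j) := fun S => by
    set H := (bas.b3.fin R).toFinset.erase 0 with hH
    rw [← sum_filter, ← sum_image (g := q) (f := fun x => 128 * G x.2) fun x hx y hy e => by
      rw [(hq x (mem_filter.1 hx).2).1, (hq y (mem_filter.1 hy).2).1, e]]
    refine (sum_le_sum_of_subset_of_nonneg (t := H ×ˢ (S.image fun h => (q h).2)) (fun x hx => ?_)
      fun x _ _ => mul_nonneg (by norm_num) (G0 _)).trans ?_
    · obtain ⟨h, k, rfl⟩ := mem_image.1 hx
      obtain ⟨k1, k2⟩ := mem_filter.1 k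
      refine mem_product.2 ⟨?_, mem_image_of_mem _ k1⟩
      simpa [hH] using ⟨fun z => k2.1 (by rw [(hq h k2).1, z, zero_mul]), (hq h k2).2⟩
    · rw [sum_product]
      simp only [sum_const, nsmul_eq_mul, ← mul_sum]
      exact mul_le_mul (bas.b3.card_le R H (by linarith) fun a ha => by simpa [hH] using ha)
        (mul_le_mul_of_nonneg_left (sG.sum_le_tsum _ fun j _ => G0 j) (by norm_num))
        (mul_nonneg (by norm_num) (sum_nonneg fun j _ => G0 j)) (by positivity)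
  have nn : ∀ h, 0 ≤ if P h then 128 * G (q h).2 else 0 := fun h => (norm_nonneg _).trans (bd h)
  rw [swap P hM]
  refine (tsum_of_norm_bounded (summable_of_sum_le nn fin).hasSum bd).trans
    ((Real.tsum_le_of_sum_le nn fin).trans ?_)
  calc _ ≤ 16 * R * (128 * ((C1 + C2) *
        (M ^ (-1 / 3 : ℝ) * Y ^ (5 / 3 : ℝ) * (δ + w ^ (-1 / 2 : ℝ))))) := by gcongr
    _ = _ := by ring

end Vale.Agent.P006.D
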