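import Vale.Agent.P006.D

/-! P006 row TRD: transfer from exponential weights to the log-normal weight. -/

noncomputable section

namespace Vale.Agent.P006.D
open Vale.Agent.P026
open MeasureTheory Set

namespace TRDM

theorem dpow {M y : ℝ} (hM : 0 < M) (hy : 0 < y) (s : ℝ) : (M / y) ^ s = M ^ s * y ^ (-s) := by
  rw [Real.div_rpow hM.le hy.le, Real.rpow_neg hy.le, div_eq_mul_inv]

end TRDM

open TRDM in
theorem trdS (h : REPStmt) : TRDStmt := by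
  obtain ⟨k, km, ki, k3, k4⟩ := h
  have ka : ∀ s : ℝ, IntegrableOn (fun y => |k y| * y ^ s) (Ioi 0) := fun s =>
    IntegrableOn.congr_fun (ki s).abs (fun y hy => by
      simp only [abs_mul, abs_of_pos (Real.rpow_pos_of_pos hy s)]) measurableSet_Ioi
  obtain ⟨I, hI⟩ : ∃ I : ℝ → ℝ, ∀ s, I s = ∫ y in Ioi (0 : ℝ), |k y| * y ^ s := ⟨_, fun _ => rfl⟩
  have I0 : ∀ s, 0 ≤ I s := fun s => by
    rw [hI]
    exact setIntegral_nonneg measurableSet_Ioi fun y hy =>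
      mul_nonneg (abs_nonneg _) (Real.rpow_nonneg (le_of_lt hy) _)
  have i1 := I0 (-1)
  have i2 := I0 (-(2 / 3))
  have i3 := I0 (-(1 / 3))
  have i4 := I0 (-(-1 / 3))
  refine ⟨I (-1) + I (-(2 / 3)) + I (-(1 / 3)) + I (-(-1 / 3)), by positivity, ?_⟩
  intro ι _ g x α B1 B2 B3 B4 M hM hg hx b1 b2 b3 b4 hZ
  obtain ⟨T, hT⟩ : ∃ T : ι → ℝ → ℝ, ∀ i y, T i y = g i * Real.exp (-(x i / (M / y))) :=
    ⟨_, fun _ _ => rfl⟩
  have T0 : ∀ i y, 0 ≤ T i y := fun i y => by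
    rw [hT]; exact mul_nonneg (hg i) (Real.exp_pos _).le
  have Tm : ∀ i, Measurable (T i) := fun i => by
    rw [show T i = fun y => g i * Real.exp (-(x i / (M / y))) from funext (hT i)]
    fun_prop
  have Ts : ∀ y ∈ Ioi (0 : ℝ), Summable fun i => T i y := fun y hy => by
    simp only [hT]; exact (hZ _ (div_pos hM hy)).1
  obtain ⟨E, hE⟩ : ∃ E : ℝ → ℝ, ∀ y, E y = B1 * M * (|k y| * y ^ (-1 : ℝ)) +
      B2 * M ^ (2 / 3 : ℝ) * (|k y| * y ^ (-(2 / 3) : ℝ)) +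
      B3 * M ^ (1 / 3 : ℝ) * (|k y| * y ^ (-(1 / 3) : ℝ)) +
      B4 * M ^ (-1 / 3 : ℝ) * (|k y| * y ^ (-(-1 / 3) : ℝ)) := ⟨_, fun _ => rfl⟩
  have Ef : E = fun y => B1 * M * (|k y| * y ^ (-1 : ℝ)) +
      B2 * M ^ (2 / 3 : ℝ) * (|k y| * y ^ (-(2 / 3) : ℝ)) +
      B3 * M ^ (1 / 3 : ℝ) * (|k y| * y ^ (-(1 / 3) : ℝ)) +
      B4 * M ^ (-1 / 3 : ℝ) * (|k y| * y ^ (-(-1 / 3) : ℝ)) := funext hE
  have j1 := (ka (-1)).const_mul (B1 * M)
  have j2 := (ka (-(2 / 3))).const_mul (B2 * M ^ (2 / 3 : ℝ))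
  have j3 := (ka (-(1 / 3))).const_mul (B3 * M ^ (1 / 3 : ℝ))
  have j4 := (ka (-(-1 / 3))).const_mul (B4 * M ^ (-1 / 3 : ℝ))
  have Ei : IntegrableOn E (Ioi 0) := by
    rw [Ef]; exact ((j1.add j2).add j3).add j4
  have EI : ∫ y in Ioi (0 : ℝ), E y = B1 * M * I (-1) + B2 * M ^ (2 / 3 : ℝ) * I (-(2 / 3)) +
      B3 * M ^ (1 / 3 : ℝ) * I (-(1 / 3)) + B4 * M ^ (-1 / 3 : ℝ) * I (-(-1 / 3)) := by
    have a1 := integral_add ((j1.add j2).add j3) j4
    have a2 := integral_add (j1.add j2) j3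
    have a3 := integral_add j1 j2
    simp only [Pi.add_apply] at a1 a2 a3
    simp only [hE]
    rw [a1, a2, a3]
    simp only [integral_const_mul, hI]
  have key : ∀ y ∈ Ioi (0 : ℝ),
      |k y| * |∑' i, T i y - α * (M ^ (2 / 3 : ℝ) * y ^ (-(2 / 3) : ℝ))| ≤ E y := fun y hy => by
    have h2 := (hZ _ (div_pos hM hy)).2
    rw [dpow hM hy, dpow hM hy, dpow hM hy] at h2
    simp only [hT]
    refine (mul_le_mul_of_nonneg_left h2 (abs_nonneg _)).trans_eq ?_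
    rw [hE, Real.rpow_neg_one, div_eq_mul_inv]
    ring
  obtain ⟨H, hH⟩ : ∃ H : ℝ → ℝ, H = fun y =>
      |α| * M ^ (2 / 3 : ℝ) * (|k y| * y ^ (-(2 / 3) : ℝ)) + E y := ⟨_, rfl⟩
  have Hi : IntegrableOn H (Ioi 0) := by
    rw [hH]; exact ((ka _).const_mul _).add Ei
  have key2 : ∀ y ∈ Ioi (0 : ℝ), |k y| * ∑' i, T i y ≤ H y := fun y hy => by
    have h1 := key y hy
    have h2 : 0 ≤ M ^ (2 / 3 : ℝ) * y ^ (-(2 / 3) : ℝ) :=
      mul_nonneg (Real.rpow_nonneg hM.le _) (Real.rpow_nonneg (le_of_lt hy) _)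
    have h3 := mul_le_mul_of_nonneg_left
      (le_abs_self (∑' i, T i y - α * (M ^ (2 / 3 : ℝ) * y ^ (-(2 / 3) : ℝ)))) (abs_nonneg (k y))
    have h4 := mul_le_mul_of_nonneg_left (mul_le_mul_of_nonneg_right (le_abs_self α) h2)
      (abs_nonneg (k y))
    rw [hH]
    nlinarith
  have fin : ∀ (s : Finset ι), ∀ y ∈ Ioi (0 : ℝ), ∑ i ∈ s, ‖k y * T i y‖ ≤ H y := fun s y hy => by
    refine le_trans ?_ (key2 y hy)
    simp only [norm_mul, Real.norm_eq_abs, abs_of_nonneg (T0 _ y)]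
    rw [← Finset.mul_sum]
    exact mul_le_mul_of_nonneg_left ((Ts y hy).sum_le_tsum s fun i _ => T0 i y) (abs_nonneg _)
  have Fi : ∀ i, IntegrableOn (fun y => k y * T i y) (Ioi 0) := fun i =>
    Integrable.mono' Hi (km.mul (Tm i)).aestronglyMeasurable
      ((ae_restrict_iff' measurableSet_Ioi).2 (Filter.Eventually.of_forall fun y hy => by
        simpa using fin {i} y hy))
  have Fs : Summable fun i => ∫ y in Ioi (0 : ℝ), ‖k y * T i y‖ := by
    refine summable_of_sum_le (c := ∫ y in Ioi (0 : ℝ), H y)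
      (fun i => integral_nonneg fun y => norm_nonneg _) fun s => ?_
    rw [← integral_finsetSum s fun i _ => (Fi i).norm]
    exact setIntegral_mono_on (integrable_finsetSum s fun i _ => (Fi i).norm) Hi
      measurableSet_Ioi (fin s)
  have hs := (hasSum_integral_of_summable_integral_norm Fi Fs).mul_left (M ^ (1 / 6 : ℝ))
  have term : ∀ i, M ^ (1 / 6 : ℝ) * ∫ y in Ioi (0 : ℝ), k y * T i y =
      g i * (x i ^ (1 / 6 : ℝ) * VV M (x i)) := fun i => by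
    by_cases h0 : g i = 0
    · simp [hT, h0]
    have xi := hx i h0
    have e : ∀ y, k y * T i y = g i * (k y * Real.exp (-(y * (x i / M)))) := fun y => by
      rw [hT, div_div_eq_mul_div, mul_comm (x i) y, mul_div_assoc]; ring
    simp only [e]
    rw [integral_const_mul, k3 _ (div_pos xi hM), Real.div_rpow xi.le hM.le]
    have : M ^ (1 / 6 : ℝ) ≠ 0 := (Real.rpow_pos_of_pos hM _).ne'
    simp only [VV, div_one]
    field_simp
  simp only [term] at hs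
  refine ⟨hs.summable, ?_⟩
  rw [hs.tsum_eq]
  simp only [tsum_mul_left]
  have Gi : IntegrableOn (fun y => k y * ∑' i, T i y) (Ioi 0) :=
    Integrable.mono' Hi (km.mul (Measurable.tsum Tm)).aestronglyMeasurable
      ((ae_restrict_iff' measurableSet_Ioi).2 (Filter.Eventually.of_forall fun y hy => by
        rw [norm_mul, Real.norm_eq_abs, Real.norm_of_nonneg (tsum_nonneg fun i => T0 i y)]
        exact key2 y hy))
  have j0 := (ki (-(2 / 3))).const_mul (α * M ^ (2 / 3 : ℝ))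
  have le1 : ∫ y in Ioi (0 : ℝ), k y * ∑' i, T i y ≤
      ∫ y in Ioi (0 : ℝ), α * M ^ (2 / 3 : ℝ) * (k y * y ^ (-(2 / 3) : ℝ)) + E y := by
    refine setIntegral_mono_on Gi (j0.add Ei) measurableSet_Ioi fun y hy => ?_
    have h1 := key y hy
    rw [← abs_mul] at h1
    have h2 := (le_abs_self _).trans h1
    nlinarith
  rw [integral_add j0 Ei, integral_const_mul, EI, ← neg_div, k4] at le1
  refine (mul_le_mul_of_nonneg_left le1 (Real.rpow_nonneg hM.le _)).trans ?_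
  have m56 : M ^ (5 / 6 : ℝ) = M ^ (1 / 6 : ℝ) * M ^ (2 / 3 : ℝ) := by
    rw [← Real.rpow_add hM]; norm_num
  rw [m56, neg_div]
  have p6 := Real.rpow_nonneg hM.le (1 / 6 : ℝ)
  have q1 : 0 ≤ B1 * M := by positivity
  have q2 : 0 ≤ B2 * M ^ (2 / 3 : ℝ) := by positivity
  have q3 : 0 ≤ B3 * M ^ (1 / 3 : ℝ) := by positivity
  have q4 : 0 ≤ B4 * M ^ (-1 / 3 : ℝ) := by positivity
  generalize B1 * M = u1 at q1 ⊢
  generalize B2 * M ^ (2 / 3 : ℝ) = u2 at q2 ⊢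
  generalize B3 * M ^ (1 / 3 : ℝ) = u3 at q3 ⊢
  generalize B4 * M ^ (-1 / 3 : ℝ) = u4 at q4 ⊢
  generalize I (-1) = a1 at i1 ⊢
  generalize I (-(2 / 3)) = a2 at i2 ⊢
  generalize I (-(1 / 3)) = a3 at i3 ⊢
  generalize I (-(-1 / 3)) = a4 at i4 ⊢
  have : u1 * a1 + u2 * a2 + u3 * a3 + u4 * a4 ≤ (a1 + a2 + a3 + a4) * (u1 + u2 + u3 + u4) := by
    have : 0 ≤ a1 * (u2 + u3 + u4) + a2 * (u1 + u3 + u4) + a3 * (u1 + u2 + u4) +
      a4 * (u1 + u2 + u3) := by positivity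
    nlinarith
  nlinarith [mul_le_mul_of_nonneg_left this p6]

end Vale.Agent.P006.D
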