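import Vale.Agent.P006.D.AB
import Vale.Agent.P006.D.C1
import Vale.Agent.P006.D.CS
import Vale.Agent.P006.D.CU
import Vale.Agent.P006.D.D1
import Vale.Agent.P006.D.D2
import Vale.Agent.P006.D.EE
import Vale.Agent.P006.D.FQ
import Vale.Agent.P006.D.ID
import Vale.Agent.P006.D.KQ
import Vale.Agent.P006.D.LQ
import Vale.Agent.P006.D.NC
import Vale.Agent.P006.D.P1
import Vale.Agent.P006.D.REP
import Vale.Agent.P006.D.ST
import Vale.Agent.P006.D.SW
import Vale.Agent.P006.D.TRD
import Vale.Agent.P006.D.V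
import Vale.Agent.P006.L.All
import Vale.Agent.P006.A.All

/-! P006 branch D, closed. -/

namespace Vale.Agent.P006.D

theorem p1All : P1Stmt :=
  p1S fqS stS (lqS LAll.sl clS) (cuS c1S (ncS c1S)) (swS c1S (ncS c1S) abS) (eeS fqS stS LAll.sla) csS

theorem varAll : VarStmt :=
  varS (d1S (idS kqS) p1All (trdS repS) csS) (d2S AK.ti (ncS c1S)) AK.w8 csS

end Vale.Agent.P006.D
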