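import Vale.Agent.P006.D.D1
import Vale.Agent.P026.M.LN
import Vale.Agent.P026.M.B8

/-! P006 branch D: the variance bound. -/

noncomputable section
open Complex
open scoped Classical ComplexConjugate

namespace Vale.Agent.P006.D
open Vale.Agent.P026

namespace VM
open D1M

theorem Np {m : O} (h : Prim m) : 0 < N m :=
  lt_of_lt_of_le one_pos (W1.bas.b1.N_one_le m (W1.bas.b2.ne m h))

theorem cc_sq {m : O} (h : Prim m) : ‖K.cc m‖ ^ 2 = ‖bb m‖ ^ 2 / N m := by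
  unfold K.cc
  rw [norm_div, norm_mul, W1.bas.b6.norm _ _ (Z0.cop_lam h), one_mul, Complex.norm_real,
    Real.norm_eq_abs, div_pow, sq_abs, Real.sq_sqrt (N0 m)]

theorem cc_le {m : O} (h : Prim m) : ‖K.cc m‖ ≤ N m ^ (1 / 6 : ℝ) := by
  have h0 := Np h
  refine le_of_sq_le_sq (a := ‖K.cc m‖) ?_ (Real.rpow_nonneg h0.le _) |>.trans le_rfl
  rw [cc_sq h, div_le_iff₀ h0]
  calc ‖bb m‖ ^ 2 ≤ (N m ^ (2 / 3 : ℝ)) ^ 2 := pow_le_pow_left₀ (norm_nonneg _) (W1.bb.norm_le m) 2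
    _ = (N m ^ (1 / 6 : ℝ)) ^ 2 * N m := by
      rw [← Real.rpow_natCast, ← Real.rpow_natCast, ← Real.rpow_mul h0.le, ← Real.rpow_mul h0.le,
        ← Real.rpow_add_one h0.ne']
      norm_num

theorem sumV {M : ℝ} (hM : 0 < M) :
    Summable fun m : O => if Prim m then N m ^ (1 / 6 : ℝ) * VV M (N m) else 0 := by
  obtain ⟨C, hC⟩ := (lnS W1.bas).sum (1 / 6)
  refine Summable.of_nonneg_of_le (fun m => ?_) (fun m => ?_) (hC M hM).1
  · split_ifs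
    · exact mul_nonneg (Real.rpow_nonneg (N0 _) _) (VV_nn _ _)
    · exact le_rfl
  · by_cases h : Prim m
    · rw [if_pos h, if_neg (W1.bas.b2.ne m h)]
    · rw [if_neg h]
      split_ifs
      · exact le_rfl
      · exact mul_nonneg (Real.rpow_nonneg (N0 _) _) (VV_nn _ _)

theorem sumT {M : ℝ} (hM : 0 < M) (n : O) :
    Summable fun k : O => if Prim k then K.cc k * cub n k * VV M (N k) else 0 := by
  refine Summable.of_norm_bounded (sumV hM) fun k => ?_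
  split_ifs with h
  · rw [norm_mul, norm_mul, Complex.norm_real, Real.norm_of_nonneg (VV_nn _ _)]
    refine mul_le_mul_of_nonneg_right ?_ (VV_nn _ _)
    exact (mul_le_of_le_one_right (norm_nonneg _) (W1.bas.b6.norm_le _ _)).trans (cc_le h)
  · simp

theorem ww_eq {m : O} (h : Prim m) : ‖tau m‖ ^ 2 * N m ^ (1 / 6 : ℝ) = K.ww m := by
  have h0 := Np h
  unfold tau K.ww
  rw [norm_mul, mul_pow, cc_sq h, Complex.norm_real, Real.norm_of_nonneg (Real.rpow_nonneg h0.le _),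
    ← Real.rpow_natCast (N m ^ (-1 / 6 : ℝ)), ← Real.rpow_mul h0.le, div_eq_mul_inv,
    ← Real.rpow_neg_one, mul_assoc, mul_assoc, ← Real.rpow_add h0, ← Real.rpow_add h0]
  norm_num

theorem tau_eq {m : O} (h : Prim m) : tau m * ((N m ^ (1 / 6 : ℝ) : ℝ) : ℂ) = K.cc m := by
  have h0 := Np h
  unfold tau
  rw [mul_assoc, ← Complex.ofReal_mul, ← Real.rpow_add h0]
  norm_num

theorem sumW {M : ℝ} (hM : 0 < M) :
    Summable fun k : O => if Prim k then K.ww k * VV M (N k) else 0 := by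
  refine Summable.of_norm_bounded (sumV hM) fun k => ?_
  split_ifs with h
  · have h0 := Np h
    have e : K.ww k ≤ N k ^ (1 / 6 : ℝ) := by
      unfold K.ww
      calc ‖bb k‖ ^ 2 * N k ^ (-7 / 6 : ℝ) ≤ (N k ^ (2 / 3 : ℝ)) ^ 2 * N k ^ (-7 / 6 : ℝ) :=
            mul_le_mul_of_nonneg_right (pow_le_pow_left₀ (norm_nonneg _) (W1.bb.norm_le k) 2)
              (Real.rpow_nonneg h0.le _)
        _ = _ := by
          rw [← Real.rpow_natCast, ← Real.rpow_mul h0.le, ← Real.rpow_add h0]; norm_num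
    have e0 : 0 ≤ K.ww k := by unfold K.ww; positivity
    rw [Real.norm_of_nonneg (mul_nonneg e0 (VV_nn _ _))]
    exact mul_le_mul_of_nonneg_right e (VV_nn _ _)
  · simp

theorem expand (A t s : ℂ) (c : ℝ) : ‖A - (c : ℂ) * conj t * s‖ ^ 2 =
    ‖A‖ ^ 2 - 2 * c * (conj s * (A * t)).re + c ^ 2 * ‖s‖ ^ 2 * ‖t‖ ^ 2 := by
  simp only [← Complex.normSq_eq_norm_sq, Complex.normSq_apply, sub_re, sub_im, mul_re, mul_im,
    ofReal_re, ofReal_im, conj_re, conj_im]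
  ring

theorem Vlow {M x : ℝ} (hM : 0 < M) (h1 : M / 2 < x) (h2 : x ≤ M) :
    M ^ (1 / 6 : ℝ) ≤ 6 * (x ^ (1 / 6 : ℝ) * VV M x) := by
  have hx : 0 < x := by linarith
  have a1 : M ^ (1 / 6 : ℝ) ≤ 2 * x ^ (1 / 6 : ℝ) := by
    calc M ^ (1 / 6 : ℝ) ≤ (2 * x) ^ (1 / 6 : ℝ) := Real.rpow_le_rpow hM.le (by linarith) (by norm_num)
      _ = 2 ^ (1 / 6 : ℝ) * x ^ (1 / 6 : ℝ) := Real.mul_rpow (by norm_num) hx.le
      _ ≤ 2 * x ^ (1 / 6 : ℝ) := by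
        refine mul_le_mul_of_nonneg_right ?_ (Real.rpow_nonneg hx.le _)
        calc (2 : ℝ) ^ (1 / 6 : ℝ) ≤ 2 ^ (1 : ℝ) :=
              Real.rpow_le_rpow_of_exponent_le (by norm_num) (by norm_num)
          _ = 2 := Real.rpow_one 2
  have a2 : 1 ≤ 3 * VV M x := by
    unfold VV
    have l1 : Real.log (x / M) ≤ 0 := Real.log_nonpos (by positivity) ((div_le_one hM).2 h2)
    have l2 : -1 ≤ Real.log (x / M) := by
      have : Real.log (1 / 2) ≤ Real.log (x / M) :=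
        Real.log_le_log (by norm_num) (by rw [le_div_iff₀ hM]; linarith)
      rw [one_div, Real.log_inv] at this
      linarith [Real.log_two_lt_d9]
    have l3 : Real.exp (-1) ≤ Real.exp (-(Real.log (x / M)) ^ 2) := Real.exp_le_exp.2 (by nlinarith)
    have l4 := Real.exp_neg_one_gt_d9
    linarith
  have := Real.rpow_nonneg hx.le (1 / 6 : ℝ)
  nlinarith

theorem Sb_le {Y w : ℝ} {b : O → ℂ} (hY : 2 ≤ Y) (hb : Ro Y w b) :
    ‖Sb Y b‖ ≤ 32 * Y ^ (5 / 6 : ℝ) := by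
  have hY0 : 0 < Y := by linarith
  have hc : ((SQ Y).card : ℝ) ≤ 16 * Y := W1.bas.b3.card_le Y _ hY0.le fun a ha =>
    ⟨W1.bas.b2.ne a (mSQ.1 ha).1.1, (mSQ.1 ha).2⟩
  have h1 : ∀ n ∈ SQ Y, ‖b n * ((N n ^ (-1 / 6 : ℝ) : ℝ) : ℂ)‖ ≤ 2 * Y ^ (-1 / 6 : ℝ) := by
    intro n _
    by_cases h : b n = 0
    · rw [h, zero_mul, norm_zero]; positivity
    · obtain ⟨-, h2, -, -⟩ := hb.supp n h
      rw [norm_mul, Complex.norm_real, Real.norm_of_nonneg (Real.rpow_nonneg (N0 _) _)]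
      refine (mul_le_of_le_one_left (Real.rpow_nonneg (N0 _) _) (hb.le n)).trans ?_
      calc N n ^ (-1 / 6 : ℝ) ≤ (Y / 2) ^ (-1 / 6 : ℝ) :=
            Real.rpow_le_rpow_of_nonpos (by positivity) h2.le (by norm_num)
        _ = Y ^ (-1 / 6 : ℝ) / 2 ^ (-1 / 6 : ℝ) := Real.div_rpow hY0.le (by norm_num) _
        _ ≤ 2 * Y ^ (-1 / 6 : ℝ) := by
          rw [div_le_iff₀ (by positivity)]
          have : (2 : ℝ) ^ (-1 : ℝ) ≤ 2 ^ (-1 / 6 : ℝ) :=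
            Real.rpow_le_rpow_of_exponent_le (by norm_num) (by norm_num)
          rw [Real.rpow_neg_one] at this
          have h3 := Real.rpow_nonneg hY0.le (-1 / 6 : ℝ)
          nlinarith
  calc ‖Sb Y b‖ ≤ ∑ n ∈ SQ Y, 2 * Y ^ (-1 / 6 : ℝ) := norm_sum_le_of_le _ h1
    _ = (SQ Y).card * (2 * Y ^ (-1 / 6 : ℝ)) := by rw [Finset.sum_const, nsmul_eq_mul]
    _ ≤ 16 * Y * (2 * Y ^ (-1 / 6 : ℝ)) := mul_le_mul_of_nonneg_right hc (by positivity)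
    _ = 32 * Y ^ (5 / 6 : ℝ) := by
      rw [show (5 / 6 : ℝ) = -1 / 6 + 1 by norm_num, Real.rpow_add_one hY0.ne']; ring

theorem p6 {x : ℝ} (hx : 0 < x) (k : ℕ) (r : ℝ) (h : r = k / 6) : x ^ r = (x ^ (1 / 6 : ℝ)) ^ k := by
  rw [← Real.rpow_natCast, ← Real.rpow_mul hx.le, h]; congr 1; ring

theorem fin {C1 C2 C3 k a y z η μ : ℝ} (hC1 : 0 ≤ C1) (hC2 : 0 ≤ C2) (hC3 : 0 ≤ C3) (hc : 0 < k)
    (a0 : 0 < a) (y0 : 0 < y) (ya : y ≤ a) (hMn : 0 ≤ z) (he : 0 ≤ η) (hμ : 0 ≤ μ) :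
    6 * (C1 * a * (z + a ^ 4 * y ^ 10 * η + a ^ 2 * (y ^ 6) ^ 2 + (a ^ 2)⁻¹ * y ^ 16) +
      2 * k * (32 * y ^ 5) * (C2 * a ^ 5 * y ^ 5 * (η + μ)) +
        k ^ 2 * (32 * y ^ 5) ^ 2 * (C3 * (a ^ 5 * μ))) ≤
    a * (6 * (2 * C1 + 64 * k * C2 + 1024 * k ^ 2 * C3) *
      (z + a ^ 4 * y ^ 4 * y ^ 6 * (η + y ^ 2 / a ^ 2 + μ))) := by
  have u1 : a ^ 2 * (y ^ 6) ^ 2 = a ^ 4 * y ^ 10 * (y ^ 2 / a ^ 2) := by field_simp
  have u2 : (a ^ 2)⁻¹ * y ^ 16 ≤ a ^ 4 * y ^ 10 * (y ^ 2 / a ^ 2) := by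
    have : a ^ 4 * y ^ 10 * (y ^ 2 / a ^ 2) = (a ^ 2)⁻¹ * (y ^ 12 * a ^ 4) := by field_simp
    rw [this]
    refine mul_le_mul_of_nonneg_left ?_ (by positivity)
    have := pow_le_pow_left₀ y0.le ya 4
    nlinarith [pow_pos y0 12]
  have r0 : 0 ≤ y ^ 2 / a ^ 2 := by positivity
  generalize y ^ 2 / a ^ 2 = r at *
  have U0 : 0 ≤ a ^ 4 * y ^ 10 := by positivity
  have e1 : a ^ 4 * y ^ 4 * y ^ 6 = a ^ 4 * y ^ 10 := by ring
  rw [e1, u1]
  have e2 : 2 * k * (32 * y ^ 5) * (C2 * a ^ 5 * y ^ 5 * (η + μ)) =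
      a * (64 * k * C2 * (a ^ 4 * y ^ 10 * (η + μ))) := by ring
  have e3 : k ^ 2 * (32 * y ^ 5) ^ 2 * (C3 * (a ^ 5 * μ)) =
      a * (1024 * k ^ 2 * C3 * (a ^ 4 * y ^ 10 * μ)) := by ring
  rw [e2, e3]
  generalize a ^ 4 * y ^ 10 = U at *
  generalize (a ^ 2)⁻¹ * y ^ 16 = v at *
  have W0 : 0 ≤ U * η := by positivity
  have W1 : 0 ≤ U * r := by positivity
  have W2 : 0 ≤ U * μ := by positivity
  have b1 : z + U * η + U * r + v ≤ 2 * (z + U * (η + r + μ)) := by nlinarith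
  have b2 : U * (η + μ) ≤ z + U * (η + r + μ) := by nlinarith
  have b3 : U * μ ≤ z + U * (η + r + μ) := by nlinarith
  have c1 := mul_le_mul_of_nonneg_left b1 hC1
  have c2 := mul_le_mul_of_nonneg_left b2 (by positivity : 0 ≤ 64 * k * C2)
  have c3 := mul_le_mul_of_nonneg_left b3 (by positivity : 0 ≤ 1024 * k ^ 2 * C3)
  have : C1 * a * (z + U * η + U * r + v) + a * (64 * k * C2 * (U * (η + μ))) +
      a * (1024 * k ^ 2 * C3 * (U * μ)) ≤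
      a * ((2 * C1 + 64 * k * C2 + 1024 * k ^ 2 * C3) * (z + U * (η + r + μ))) := by
    have := mul_le_mul_of_nonneg_left (add_le_add (add_le_add c1 c2) c3) a0.le
    nlinarith
  nlinarith

end VM

open D1M VM

theorem varS (h1 : D1Stmt) (h2 : D2Stmt) (h8 : K.W8Stmt) (hK : CSStmt) : VarStmt := by
  obtain ⟨C1, hC1, h1⟩ := h1
  obtain ⟨C2, hC2, h2⟩ := h2
  obtain ⟨C3, hC3, h8⟩ := h8 1 one_pos
  have hc := hK.2.2.1
  have hρ := hK.2.2.2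
  refine ⟨6 * (2 * C1 + 64 * K.cstar * C2 + 1024 * K.cstar ^ 2 * C3), by positivity,
    fun M Y w R δ b S hY hYM hw hR hδ hb hs hS => ?_⟩
  have hY0 : 0 < Y := by linarith
  have hM : 0 < M := by linarith
  have hM1 : 1 ≤ M := by linarith
  obtain ⟨s1, t1⟩ := h1 M Y w R δ b hM hY hw hR hδ hb hs
  have t2 := h2 M Y w b hY hYM hw hb
  have t3 := h8 1 M W1.bas.b2.one hM
  simp only [isCoprime_one_right, and_true, K.EP, (b8S W1.bas).pf_one, Finset.prod_empty, mul_one,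
    N_one, Real.one_rpow] at t3
  have s3 := sumW hM
  have s2 : HasSum (fun m => if Prim m then cg Y b m * (K.cc m * VV M (N m)) else 0)
      (∑ n ∈ SQ Y, b n * gt n * K.T0 n M) := by
    have := hasSum_sum (s := SQ Y) fun n _ => ((sumT hM n).hasSum.mul_left (b n * gt n))
    refine (congrArg (fun f => HasSum f _) (funext fun m => ?_)).mpr this
    split_ifs with h
    · unfold cg
      rw [Finset.sum_mul]
      refine Finset.sum_congr rfl fun n hn => ?_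
      rw [W1.cr m n h (mSQ.1 hn).1.1]; ring
    · simp
  set s := Sb Y b with hsd
  set T2 := ∑ n ∈ SQ Y, b n * gt n * K.T0 n M
  have s2' := (Complex.hasSum_re (s2.mul_left (conj s)))
  have hF : HasSum (fun m => if Prim m then ‖cg Y b m - (K.cstar : ℂ) * conj (tau m) * s‖ ^ 2 *
      (N m ^ (1 / 6 : ℝ) * VV M (N m)) else 0)
      ((∑' m, (if Prim m then ‖cg Y b m‖ ^ 2 * (N m ^ (1 / 6 : ℝ) * VV M (N m)) else 0)) -
        2 * K.cstar * (conj s * T2).re + K.cstar ^ 2 * ‖s‖ ^ 2 *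
          ∑' k : O, if Prim k then K.ww k * VV M (N k) else 0) := by
    have := (s1.hasSum.sub (s2'.mul_left (2 * K.cstar))).add
      (s3.hasSum.mul_left (K.cstar ^ 2 * ‖s‖ ^ 2))
    refine (congrArg (fun f => HasSum f _) (funext fun m => ?_)).mpr this
    split_ifs with h
    · rw [expand, ← ww_eq h, ← tau_eq h]
      have : (conj s * (cg Y b m * (tau m * ((N m ^ (1 / 6 : ℝ) : ℝ) : ℂ) * (VV M (N m) : ℂ)))).re =
          (conj s * (cg Y b m * tau m)).re * (N m ^ (1 / 6 : ℝ) * VV M (N m)) := by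
        rw [← Complex.re_mul_ofReal]; congr 1; push_cast; ring
      rw [this]; ring
    · simp
  have hle : M ^ (1 / 6 : ℝ) * ∑ m ∈ S, ‖cg Y b m - (K.cstar : ℂ) * conj (tau m) * s‖ ^ 2 ≤
      6 * ∑ m ∈ S, (if Prim m then ‖cg Y b m - (K.cstar : ℂ) * conj (tau m) * s‖ ^ 2 *
        (N m ^ (1 / 6 : ℝ) * VV M (N m)) else 0) := by
    rw [Finset.mul_sum, Finset.mul_sum]
    refine Finset.sum_le_sum fun m hm => ?_
    rw [if_pos (hS m hm).1]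
    have := Vlow hM (hS m hm).2.1 (hS m hm).2.2
    nlinarith [sq_nonneg ‖cg Y b m - (K.cstar : ℂ) * conj (tau m) * s‖]
  have hle2 := sum_le_hasSum S (fun m _ => by
    split_ifs
    · exact mul_nonneg (sq_nonneg _) (mul_nonneg (Real.rpow_nonneg (N0 _) _) (VV_nn _ _))
    · exact le_rfl) hF
  have hsb : ‖s‖ ≤ 32 * Y ^ (5 / 6 : ℝ) := Sb_le hY hb
  have r2 : K.cstar * K.rho0 * M ^ (5 / 6 : ℝ) * ‖s‖ ^ 2 -
      ‖s‖ * ‖T2 - ((K.cstar * K.rho0 * M ^ (5 / 6 : ℝ) : ℝ) : ℂ) * s‖ ≤ (conj s * T2).re := by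
    have e : conj s * T2 = ((K.cstar * K.rho0 * M ^ (5 / 6 : ℝ) * ‖s‖ ^ 2 : ℝ) : ℂ) +
        conj s * (T2 - ((K.cstar * K.rho0 * M ^ (5 / 6 : ℝ) : ℝ) : ℂ) * s) := by
      have := Complex.conj_mul' s
      push_cast
      linear_combination (K.cstar * K.rho0 * ((M ^ (5 / 6 : ℝ) : ℝ) : ℂ)) * this
    rw [e, add_re, ofReal_re]
    have := (abs_le.1 (Complex.abs_re_le_norm
      (conj s * (T2 - ((K.cstar * K.rho0 * M ^ (5 / 6 : ℝ) : ℝ) : ℂ) * s)))).1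
    rw [norm_mul, Complex.norm_conj] at this
    linarith
  have t3' := (abs_le.1 t3).2
  have hw0 : 0 < w := by linarith
  have w1 : w ^ (-1 / 2 : ℝ) ≤ eta w R δ := by
    have : w ^ (-1 / 2 : ℝ) ≤ w ^ (-1 / 3 : ℝ) := Real.rpow_le_rpow_of_exponent_le hw (by norm_num)
    have h3 : 0 < R := by linarith
    have : 0 ≤ R ^ (-1 / 3 : ℝ) + R * (δ + w ^ (-1 / 2 : ℝ)) := by positivity
    unfold eta; linarith
  have m1 : M ^ (11 / 20 : ℝ) ≤ M ^ (5 / 6 : ℝ) * M ^ (-1 / 8 : ℝ) := by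
    rw [← Real.rpow_add hM]; exact Real.rpow_le_rpow_of_exponent_le hM1 (by norm_num)
  have he := eta_nn hw hR hδ
  have hnb := nb_nn Y b
  have hμ : 0 ≤ M ^ (-1 / 8 : ℝ) := by positivity
  have hw2 : 0 ≤ w ^ (-1 / 2 : ℝ) := by positivity
  have tot : M ^ (1 / 6 : ℝ) * ∑ m ∈ S, ‖cg Y b m - (K.cstar : ℂ) * conj (tau m) * s‖ ^ 2 ≤
      6 * (C1 * M ^ (1 / 6 : ℝ) * Er M Y w R δ b +
        2 * K.cstar * (32 * Y ^ (5 / 6 : ℝ)) *
          (C2 * M ^ (5 / 6 : ℝ) * Y ^ (5 / 6 : ℝ) * (eta w R δ + M ^ (-1 / 8 : ℝ))) +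
        K.cstar ^ 2 * (32 * Y ^ (5 / 6 : ℝ)) ^ 2 * (C3 * (M ^ (5 / 6 : ℝ) * M ^ (-1 / 8 : ℝ)))) := by
    refine hle.trans (mul_le_mul_of_nonneg_left (hle2.trans ?_) (by norm_num))
    have q1 : ‖s‖ * ‖T2 - ((K.cstar * K.rho0 * M ^ (5 / 6 : ℝ) : ℝ) : ℂ) * s‖ ≤
        (32 * Y ^ (5 / 6 : ℝ)) *
          (C2 * M ^ (5 / 6 : ℝ) * Y ^ (5 / 6 : ℝ) * (eta w R δ + M ^ (-1 / 8 : ℝ))) :=
      mul_le_mul hsb (t2.trans (mul_le_mul_of_nonneg_left (by linarith) (by positivity)))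
        (norm_nonneg _) (by positivity)
    have q2 : ‖s‖ ^ 2 * (C3 * M ^ (11 / 20 : ℝ)) ≤
        (32 * Y ^ (5 / 6 : ℝ)) ^ 2 * (C3 * (M ^ (5 / 6 : ℝ) * M ^ (-1 / 8 : ℝ))) :=
      mul_le_mul (pow_le_pow_left₀ (norm_nonneg _) hsb 2) (mul_le_mul_of_nonneg_left m1 hC3)
        (by positivity) (by positivity)
    have q3 := mul_le_mul_of_nonneg_left t3' (mul_nonneg (sq_nonneg K.cstar) (sq_nonneg ‖s‖))
    have q4 := mul_le_mul_of_nonneg_left r2 (by positivity : 0 ≤ 2 * K.cstar)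
    have q5 := mul_le_mul_of_nonneg_left q1 (by positivity : 0 ≤ 2 * K.cstar)
    have q6 := mul_le_mul_of_nonneg_left q2 (sq_nonneg K.cstar)
    nlinarith
  have a0 : 0 < M ^ (1 / 6 : ℝ) := by positivity
  refine le_of_mul_le_mul_left (tot.trans ?_) a0
  have y0 : 0 < Y ^ (1 / 6 : ℝ) := by positivity
  have ya : Y ^ (1 / 6 : ℝ) ≤ M ^ (1 / 6 : ℝ) := Real.rpow_le_rpow hY0.le hYM (by norm_num)
  have eM3 : M ^ (-1 / 3 : ℝ) = ((M ^ (1 / 6 : ℝ)) ^ 2)⁻¹ := by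
    rw [← p6 hM 2 (1 / 3) (by norm_num), ← Real.rpow_neg hM.le]; norm_num
  have eY : Y = (Y ^ (1 / 6 : ℝ)) ^ 6 := by rw [← p6 hY0 6 1 (by norm_num), Real.rpow_one]
  unfold Er
  rw [Real.mul_rpow hM.le hY0.le, Real.div_rpow hY0.le hM.le, eM3, p6 hM 4 (2 / 3) (by norm_num),
    p6 hM 5 (5 / 6) (by norm_num), p6 hM 2 (1 / 3) (by norm_num), p6 hY0 10 (5 / 3) (by norm_num),
    p6 hY0 5 (5 / 6) (by norm_num), p6 hY0 16 (8 / 3) (by norm_num), p6 hY0 4 (2 / 3) (by norm_num),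
    p6 hY0 2 (1 / 3) (by norm_num)]
  generalize M ^ (1 / 6 : ℝ) = a at *
  generalize Y ^ (1 / 6 : ℝ) = y at *
  generalize M ^ (-1 / 8 : ℝ) = μ at *
  generalize eta w R δ = η at *
  have hMn : 0 ≤ M * nb Y b := by positivity
  generalize M * nb Y b = z at *
  subst eY
  exact fin hC1 hC2 hC3 hc a0 y0 ya hMn he hμ

end Vale.Agent.P006.D
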